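import Vale.Agent.P141.H408.SkelTI
import Vale.Agent.P141.H948.CapsI

/-!
# P141, line (A): the increasing part in the gauge with a static first slot

Labels `κ ⊕ κ`: `Bg = (√2 b, 0)`, `Cg = (Th C / √2, (W - Th² / 2)^(1/2) C)`, so that
`⟪Bg, Cg⟫ = ⟪b, Th C⟫` and `|Cg|² = ⟪C, W C⟫`.

* `ndT_g` : the node form; `QW_Bg`, `QW_Cg` : the Gram matrices at the hubs `x2`, `x3`;
* `PABg`, `PBCg` : the pairs; the pair at the hub `x3` is `H408.PCAf` (`rCA_g`);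
* `TTf_leG` : the part with the slot `Th` by the raw stage.
-/

namespace Vale.Agent.P141.H228.Gauge

open Finset Matrix
open Vale.Agent.P075 (Ix val)
open Vale.Agent.P141.PL (Pt iv hs ix mem_iv ix_ix)
open Vale.Agent.P141.PL.H588 (Xg hd)
open Vale.Agent.P141.H103 (QW qK)
open Vale.Agent.P141.H585.PairCh (phs)
open Vale.Agent.P141.H652 (Th ndT Th_psd Th_le_two)
open Vale.Agent.P141.H677 (nf3 KT rt sN tr_T)
open Vale.Agent.P141.H677.Sk (FamA FamV FunF)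
open Vale.Agent.P141.H420 (Tr)
open Vale.Agent.P141.H408 (Wg Wg_pd Bt Ct sq sq_spec QL hdL rAB rBC rCA StageYC SN SN_sigma TTf
  PCAf)

noncomputable section

open scoped Classical

section weight

variable {κ : Type*} [Fintype κ] [DecidableEq κ]

/-- the second weight `W - Th² / 2` -/
def Wh (be l : ℝ) (N : ℕ) (S : ℤ) (Kq : ℤ → ℕ → ℤ → Matrix κ κ ℝ) (c x0 x : ℤ) (k : ℕ) (m : ℤ) :
    Matrix κ κ ℝ :=
  Wg be l N S Kq c x0 x k m -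
    (1 / 2 : ℝ) • (Th l N S (Kq x) c x0 x k m * Th l N S (Kq x) c x0 x k m)

/-- `T - T² / 2 ≥ 0` for `0 ≤ T ≤ 2` -/
theorem half_psd {T : Matrix κ κ ℝ} (h0 : T.PosSemidef)
    (h2 : ((2 : ℝ) • (1 : Matrix κ κ ℝ) - T).PosSemidef) :
    (T - (1 / 2 : ℝ) • (T * T)).PosSemidef := by
  obtain ⟨B, hB, hBB⟩ := P075.exists_sq h0
  have sB : Bᵀ = B := P075.psd_isSymm hB
  have h3 := (P075.psd_conj_symm h2 sB).smul (by norm_num : (0 : ℝ) ≤ 1 / 2)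
  have e : (1 / 2 : ℝ) • (B * ((2 : ℝ) • 1 - T) * B) = T - (1 / 2 : ℝ) • (T * T) := by
    rw [← hBB, Matrix.mul_sub, Matrix.sub_mul, Matrix.mul_smul, Matrix.smul_mul, Matrix.mul_one,
      smul_sub, smul_smul]
    simp only [Matrix.mul_assoc]
    norm_num
  rwa [e] at h3

theorem Wh_pd {be l : ℝ} (hbe : 0 < be) {N : ℕ} {S : ℤ} {G Kq : ℤ → ℕ → ℤ → Matrix κ κ ℝ}
    (h : ∀ x, Tr l N (G x) (Kq x)) (c x0 x : ℤ) (k : ℕ) (m : ℤ) :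
    (Wh be l N S Kq c x0 x k m).PosDef := by
  have h1 := half_psd (Th_psd (M := S) (h x) c x0 x k m) (Th_le_two (M := S) (h x) c x0 x k m)
  have e : Wh be l N S Kq c x0 x k m = be • (1 : Matrix κ κ ℝ) +
      (Th l N S (Kq x) c x0 x k m -
        (1 / 2 : ℝ) • (Th l N S (Kq x) c x0 x k m * Th l N S (Kq x) c x0 x k m)) := by
    unfold Wh Wg
    abel
  rw [e]
  exact (PosDef.one.smul hbe).add_posSemidef h1

/-- the static first slot -/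
def Bg (b : ℤ → ℤ → κ → ℝ) (x y : ℤ) : κ ⊕ κ → ℝ := Sum.elim (√2 • b x y) 0

/-- the stack -/
def Cg (be l : ℝ) (N : ℕ) (S : ℤ) (Kq : ℤ → ℕ → ℤ → Matrix κ κ ℝ) (c x0 : ℤ)
    (C : ℤ → ℤ → κ → ℝ) (k : ℕ) (z x : ℤ) : κ ⊕ κ → ℝ :=
  Sum.elim ((√2)⁻¹ • (Th l N S (Kq x) c x0 x k (ix k z) *ᵥ C z x))
    (sq (Wh be l N S Kq c x0 x k (ix k z)) *ᵥ C z x)

/-- `⟪Bg, Cg⟫ = ⟪b, Th C⟫` -/
theorem dot_g (be l : ℝ) (N : ℕ) (S : ℤ) (Kq : ℤ → ℕ → ℤ → Matrix κ κ ℝ) (c x0 : ℤ)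
    (b C : ℤ → ℤ → κ → ℝ) (k : ℕ) (z x y : ℤ) :
    Bg b x y ⬝ᵥ Cg be l N S Kq c x0 C k z x =
      b x y ⬝ᵥ Th l N S (Kq x) c x0 x k (ix k z) *ᵥ C z x := by
  have h2 : √(2 : ℝ) * (√2)⁻¹ = 1 := mul_inv_cancel₀ (by positivity)
  unfold Bg Cg
  rw [sumElim_dotProduct_sumElim, zero_dotProduct, add_zero, smul_dotProduct, dotProduct_smul,
    smul_eq_mul, smul_eq_mul, ← mul_assoc, h2, one_mul]

/-- `⟪Cg, Cg'⟫ = ⟪C, W C'⟫` in one cell -/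
theorem norm_g {be l : ℝ} (hbe : 0 < be) {N : ℕ} {S : ℤ} {G Kq : ℤ → ℕ → ℤ → Matrix κ κ ℝ}
    (h : ∀ x, Tr l N (G x) (Kq x)) (c x0 : ℤ) (C : ℤ → ℤ → κ → ℝ) (k : ℕ) {z z' : ℤ}
    (hz : ix k z = ix k z') (x : ℤ) :
    Cg be l N S Kq c x0 C k z x ⬝ᵥ Cg be l N S Kq c x0 C k z' x =
      C z x ⬝ᵥ Wg be l N S Kq c x0 x k (ix k z) *ᵥ C z' x := by
  have h2 : (√(2 : ℝ))⁻¹ * (√2)⁻¹ = 1 / 2 := by
    rw [← mul_inv, Real.mul_self_sqrt (by norm_num)]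
    norm_num
  have hT : (Th l N S (Kq x) c x0 x k (ix k z))ᵀ = Th l N S (Kq x) c x0 x k (ix k z) :=
    (Th_psd (h x) c x0 x k (ix k z)).isHermitian
  unfold Cg
  rw [sumElim_dotProduct_sumElim, ← hz, H948.form_sq (Wh_pd hbe h c x0 x k (ix k z)),
    smul_dotProduct, dotProduct_smul, smul_eq_mul, smul_eq_mul, ← mul_assoc, h2]
  unfold Wh
  rw [sub_mulVec, dotProduct_sub, smul_mulVec, dotProduct_smul, smul_eq_mul, ← mulVec_mulVec,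
    dotProduct_mulVec (C z x) (Th l N S (Kq x) c x0 x k (ix k z)), ← mulVec_transpose, hT]
  ring

end weight

section node

variable {κ : Type*} [Fintype κ] [DecidableEq κ]

/-- **The node form in the gauge.** -/
theorem ndT_g (be l : ℝ) (N : ℕ) (S : ℤ) (Kq : ℤ → ℕ → ℤ → Matrix κ κ ℝ) (c x0 : ℤ)
    (A : ℤ → ℤ → ℝ) (b C : ℤ → ℤ → κ → ℝ) {k : ℕ} (hk : 1 ≤ k) (m : Pt) :
    ndT l N S Kq c x0 A b C k m = nf3 A (Bg b) (Cg be l N S Kq c x0 C k) k m := by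
  unfold H652.ndT H677.nf3
  rw [mul_sum]
  refine sum_congr rfl fun z hz => ?_
  rw [mul_sum]
  refine sum_congr rfl fun x _ => ?_
  have hz1 : ix k z = m.1 := mem_iv.1 hz
  rw [H677.hd_qK hk, dotProduct_smul, dotProduct_sum, smul_eq_mul, mul_left_comm,
    mul_sum (a := _ * _)]
  congr 1
  refine sum_congr rfl fun y _ => ?_
  have e := dot_g be l N S Kq c x0 b C k z x y
  rw [hz1] at e
  rw [e, dotProduct_smul, dotProduct_smul, smul_eq_mul, smul_eq_mul,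
    dotProduct_comm (Th l N S (Kq x) c x0 x k m.1 *ᵥ C z x)]
  ring

/-- Gram matrix of the first slot at the hub `x2` -/
theorem QW_Bg (a k : ℕ) (b : ℤ → ℤ → κ → ℝ) (n m : ℤ) :
    QW a k (Bg b) (fun _ => 1) n m = (2 : ℝ) • QW a k b (fun _ => 1) n m := by
  ext j j'
  rw [Matrix.smul_apply, QW, QW, smul_eq_mul, mul_left_comm, mul_sum (a := (2 : ℝ))]
  congr 1
  refine sum_congr rfl fun x _ => ?_
  unfold Bg
  rw [one_mulVec, one_mulVec, sumElim_dotProduct_sumElim, zero_dotProduct, add_zero,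
    smul_dotProduct, dotProduct_smul, smul_eq_mul, smul_eq_mul, ← mul_assoc,
    Real.mul_self_sqrt (by norm_num)]

/-- Gram matrix of the stack at the hub `x3` -/
theorem QW_Cg {be l : ℝ} (hbe : 0 < be) {N : ℕ} {S : ℤ} {G Kq : ℤ → ℕ → ℤ → Matrix κ κ ℝ}
    (h : ∀ x, Tr l N (G x) (Kq x)) (c x0 : ℤ) (C : ℤ → ℤ → κ → ℝ) (a k : ℕ) (n m : ℤ) :
    QW a k (fun x z => Cg be l N S Kq c x0 C k z x) (fun _ => 1) n m =
      QW a k (fun x z => Ct be l N S Kq c x0 C k z x) (fun _ => 1) n m := by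
  ext j j'
  rw [QW, QW]
  congr 1
  refine sum_congr rfl fun x _ => ?_
  have hz : ∀ i : Ix k, ix k (2 ^ k * m + val k i) = m := fun i => by
    have h1 : (2 ^ k * m + (val k i : ℤ)) ∈ iv k m := by
      unfold PL.iv
      rw [mem_Ico]
      have h2 := P075.val_lt k i
      constructor
      · have : (0 : ℤ) ≤ (val k i : ℤ) := Int.natCast_nonneg _
        linarith
      · have : (val k i : ℤ) < 2 ^ k := by exact_mod_cast h2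
        linarith
    exact mem_iv.1 h1
  rw [one_mulVec, one_mulVec, norm_g hbe h c x0 C k ((hz j).trans (hz j').symm)]
  unfold Ct
  rw [hz j, hz j', H948.form_sq (Wg_pd hbe h c x0 x k m)]

theorem rCA_g {be l : ℝ} (hbe : 0 < be) {N : ℕ} {S : ℤ} {G Kq : ℤ → ℕ → ℤ → Matrix κ κ ℝ}
    (h : ∀ x, Tr l N (G x) (Kq x)) (c x0 : ℤ) (C : ℤ → ℤ → κ → ℝ) (A : ℤ → ℤ → ℝ) (k : ℕ)
    (m : Pt) (z x : ℝ) :
    rCA (Cg be l N S Kq c x0 C k) A k m z x = rCA (Ct be l N S Kq c x0 C k) A k m z x := by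
  unfold rCA
  rw [QW_Cg hbe h]

end node

/-! ### The stage -/

section fam

variable {ι : Type} [Fintype ι] [DecidableEq ι]

/-- static pair `(A, Bg)` at the height `h` -/
def PABg (h : ℝ) : FunF := fun _ _ _ Al o K M _ _ _ A b _ =>
  SN Al o K M fun x0 k m => rAB (A x0 k) (Bg (b x0 k)) k m h h

/-- pair `(Bg, Cg)` at the heights `y`, `z` -/
def PBCg (be y z : ℝ) : FunF := fun _ _ _ Al o K M _ l u _ b C =>
  SN Al o K M fun x0 k m =>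
    rBC (Bg (b x0 k)) (Cg be l K M.2.1 (KT l u) (o - 2) x0 (C x0 k) k) k m y z

/-- caps in the gauge -/
structure CapsG (Al : ℕ → Pt → Prop) (o : ℤ) (K : ℕ) (M : Pt) (be l : ℝ) (u : ℤ → ℤ → ι → ℝ)
    (A : FamA) (b C : FamV ι) (τ cC : ℝ) : Prop where
  capA : ∀ x0 : ℤ, ∀ k ∈ Icc 1 K, ∀ m ∈ sN Al o K M x0 k,
    ((τ ^ 2) • 1 - Xg k k (A x0 k) m.1 m.2.1).PosSemidef
  capB : ∀ x0 : ℤ, ∀ k ∈ Icc 1 K, ∀ m ∈ sN Al o K M x0 k,
    ((τ ^ 2) • 1 - (2 : ℝ) • QW k k (b x0 k) (fun _ => 1) m.2.2 m.2.1).PosSemidef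
  capC : ∀ x0 : ℤ, ∀ k ∈ Icc 1 K, ∀ m ∈ sN Al o K M x0 k,
    ((cC ^ 2) • 1 - QW k k (fun x z => Ct be l K M.2.1 (KT l u) (o - 2) x0 (C x0 k) k z x)
      (fun _ => 1) m.2.2 m.1).PosSemidef

/-- **The part with the slot `Th` by the raw stage, in the gauge.** The pair at the hub `x3` is
`H408.PCAf`. -/
theorem TTf_leG {Cst : ℝ} (H : StageYC Cst)
    {Al : ℕ → Pt → Prop} {o : ℤ} {K : ℕ} {M : Pt} {sg : ℕ → Pt → ℝ} {be l : ℝ} (hbe : 0 < be)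
    (hl : 0 < l) {u : ℤ → ℤ → ι → ℝ} {A : FamA} {b C : FamV ι}
    {τ cC P₀ P₁ QA QB Z κ' g σ e₂ : ℝ} {D L₀ L₁ : ℕ} (hτ : 0 < τ) (hcC : 0 < cC) (hP₀ : 0 ≤ P₀)
    (hP₁ : 0 ≤ P₁) (hQB0 : 0 ≤ QB) (hZ : 0 ≤ Z) (hκ' : 0 ≤ κ') (he₂ : 0 < e₂)
    (hD : τ / 2 ^ (D - 1) ≤ σ) (hσ : σ ≤ e₂) (hL₀ : cC / 2 ^ (L₀ - 1) ≤ g)
    (hL₁ : cC / 2 ^ (L₁ - 1) ≤ e₂) (hcap : CapsG Al o K M be l u A b C τ cC)
    (hAB : ∀ h, 0 < h → h ≤ τ → PABg h ι Al o K M sg l u A b C ≤ P₀ * h ^ 2)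
    (hT : ∀ x, g ≤ x → x ≤ cC → √(PBCg be τ x ι Al o K M sg l u A b C *
      PCAf be x τ ι Al o K M sg l u A b C) ≤ κ' * x)
    (hQA : PCAf be g τ ι Al o K M sg l u A b C ≤ QA)
    (hQB : PBCg be τ g ι Al o K M sg l u A b C ≤ QB)
    (hCA : ∀ x, e₂ ≤ x → x ≤ g → PCAf be x σ ι Al o K M sg l u A b C ≤ P₁ * x ^ 2)
    (hZB : ∀ h, 0 < h → h ≤ e₂ → PBCg be h h ι Al o K M sg l u A b C ≤ Z * (h ^ 2 * √(e₂ / h)))
    (hZA : ∀ h, 0 < h → h ≤ e₂ → PCAf be h h ι Al o K M sg l u A b C ≤ Z * (h ^ 2 * √(e₂ / h))) :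
    TTf ι Al o K M sg l u A b C ≤
      Cst * (κ' * L₀ + D * (√(P₀ * QA) + √(P₀ * QB)) + L₁ * √(P₁ * QB) + (P₀ + Z) * e₂) := by
  have hT' : ∀ x, Tr l K (fun k m => H677.GT u x k m) (KT l u x) := fun x => tr_T hl K u x
  have eCA : ∀ z x : ℝ, PCAf be z x ι Al o K M sg l u A b C =
      SN Al o K M fun x0 k m =>
        rCA (Cg be l K M.2.1 (KT l u) (o - 2) x0 (C x0 k) k) (A x0 k) k m z x := by
    intro z x
    unfold PCAf SN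
    refine sum_congr rfl fun t _ => sum_congr rfl fun x0 _ => sum_congr rfl fun k _ =>
      sum_congr rfl fun m _ => ?_
    exact (rCA_g hbe hT' (o - 2) x0 (C x0 k) (A x0 k) k m z x).symm
  rw [eCA] at hQA
  simp only [eCA] at hT hCA hZA
  unfold PABg at hAB
  unfold PBCg at hT hQB hZB
  simp only [SN_sigma] at hAB hT hQA hQB hCA hZB hZA
  have e : TTf ι Al o K M sg l u A b C = SN Al o K M fun x0 k m =>
      |nf3 (A x0 k) (Bg (b x0 k)) (Cg be l K M.2.1 (KT l u) (o - 2) x0 (C x0 k) k) k m| := by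
    unfold TTf SN
    refine sum_congr rfl fun t _ => sum_congr rfl fun x0 _ => sum_congr rfl fun k hk =>
      sum_congr rfl fun m _ => ?_
    exact congrArg abs (ndT_g be l K M.2.1 (KT l u) (o - 2) x0 (A x0 k) (b x0 k) (C x0 k)
      (mem_Icc.1 hk).1 m)
  rw [e, SN_sigma]
  exact H (ι ⊕ ι) (Sigma fun _ : ℤ => ℤ) ((rt M).sigma fun t => iv K t) K
    (fun i k => sN Al o K M i.2 k)
    (fun i k _ => A i.2 k) (fun i k _ => Bg (b i.2 k))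
    (fun i k _ => Cg be l K M.2.1 (KT l u) (o - 2) i.2 (C i.2 k) k) τ cC P₀ P₁ QA QB Z κ' g σ e₂
    D L₀ L₁ hτ hcC hP₀ hP₁ hQB0 hZ hκ' he₂ hD hσ hL₀ hL₁
    (fun i _ k hk m hm => hcap.capA i.2 k hk m hm)
    (fun i _ k hk m hm => by rw [QW_Bg]; exact hcap.capB i.2 k hk m hm)
    (fun i _ k hk m hm => by rw [QW_Cg hbe hT']; exact hcap.capC i.2 k hk m hm)
    hAB hT hQA hQB hCA hZB hZA

end fam

end

end Vale.Agent.P141.H228.Gauge
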