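import Vale.Agent.P141.H228.StageL
import Vale.Agent.P141.H581.StageX

/-!
# P141, line (A): the stage sum with a loss `√(τ / h)`, summed over a family

`stageLX` is `stageL` for a finite family of node matrices (one member for every point `x₀`): all
pair sums are needed only in the sum over the family.
-/

namespace Vale.Agent.P141.H228

open Finset Matrix Vale.Agent.P075 Vale.Agent.P141.PL Vale.Agent.P141.PL.H588
open Vale.Agent.P141.PL.H804 Vale.Agent.P141.H958 Vale.Agent.P141.H609 Vale.Agent.P141.H581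

noncomputable section

variable {X : Type*} {I : Finset X} {N : ℕ} {s : X → ℕ → Finset Pt} {τ cC : ℝ}
  {FA FB FC : X → NM}

/-- **The stage sum of a family**, saturated pair sums with the loss `√(τ / h)`. -/
theorem stageLX (hτ0 : 0 < τ) (hC : 0 < cC)
    (capA : ∀ i ∈ I, ∀ k ∈ Icc 1 N, ∀ m ∈ s i k,
      (1 - gramC ((τ ^ 2)⁻¹ * (4 ^ k)⁻¹) (FA i k m)).PosSemidef)
    (capB : ∀ i ∈ I, ∀ k ∈ Icc 1 N, ∀ m ∈ s i k,
      (1 - gramC ((τ ^ 2)⁻¹ * (4 ^ k)⁻¹) (FB i k m)).PosSemidef)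
    (capC : ∀ i ∈ I, ∀ k ∈ Icc 1 N, ∀ m ∈ s i k,
      (1 - gramC ((cC ^ 2)⁻¹ * (4 ^ k)⁻¹) (FC i k m)).PosSemidef)
    {θ P₀ PA PB κ' : ℝ} (hθ : 0 < θ) (hP₀ : 0 ≤ P₀)
    (hPA : 0 ≤ PA) (hPB : 0 ≤ PB) (hκ' : 0 ≤ κ')
    (hAB : ∀ h, 0 < h → h ≤ τ → RX I N s h h FA FB ≤ P₀ * (h ^ 2 * √(τ / h)))
    (hBC : ∀ h, 0 < h → h ≤ τ → RX I N s h (θ * h) FB FC ≤ PB * (h ^ 2 * √(τ / h)))
    (hCA : ∀ h, 0 < h → h ≤ τ → RX I N s (θ * h) h FC FA ≤ PA * (h ^ 2 * √(τ / h)))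
    (hT : ∀ x, θ * τ ≤ x → x ≤ cC → √(RX I N s τ x FB FC * RX I N s x τ FC FA) ≤ κ' * x)
    {L₀ : ℕ} (hL : cC / 2 ^ (L₀ - 1) ≤ θ * τ) :
    UX I N s τ τ cC FA FB FC 0 0 0 ≤
      81 * (√(P₀ * PA) + √(P₀ * PB) + √(PA * PB) / θ) * τ + 6 * κ' * L₀ := by
  obtain ⟨K, hK⟩ := UX_tail (FA := FA) (FB := FB) (FC := FC) hτ0 hC capA capB capC
  set κ : ℝ := 6 * (√(P₀ * PA) + √(P₀ * PB) + √(PA * PB) / θ) with hκ
  have n1 : 0 ≤ √(P₀ * PA) := Real.sqrt_nonneg _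
  have n2 : 0 ≤ √(P₀ * PB) := Real.sqrt_nonneg _
  have n3 : 0 ≤ √(PA * PB) / θ := by positivity
  have κ0 : 0 ≤ κ := by positivity
  have lvA : ∀ a : ℕ, τ / 2 ^ (a - 1) ≤ τ := fun a =>
    div_le_self hτ0.le (one_le_pow₀ (by norm_num))
  have lvC : ∀ a : ℕ, cC / 2 ^ (a - 1) ≤ cC := fun a =>
    div_le_self hC.le (one_le_pow₀ (by norm_num))
  have main := schedL (f := UX I N s τ τ cC FA FB FC) (θ := θ) (τ := τ) (κ := κ) (κ' := 6 * κ')
    hτ0 hτ0 hC hθ le_rfl le_rfl κ0 (by positivity) hK hL (fun a b e h1 h2 => ?_)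
    (fun a b e h1 h2 => ?_) (fun a b e h0 h1 h2 => ?_) (fun a b e h0 => ?_)
  · refine main.trans (le_of_eq ?_)
    rw [hκ]
    ring
  · set h := τ / 2 ^ (a - 1) with hh
    have ph : 0 < h := by positivity
    have pB : 0 < τ / 2 ^ (b - 1) := by positivity
    have pC : 0 < cC / 2 ^ (e - 1) := by positivity
    have hτ : h ≤ τ := lvA a
    have r1 : RX I N s (cC / 2 ^ (e - 1)) h FC FA ≤ PA * (h ^ 2 * √(τ / h)) :=
      (RX_mono pC ph h2 le_rfl).trans (hCA h ph hτ)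
    have r2 : RX I N s h (τ / 2 ^ (b - 1)) FA FB ≤ P₀ * (h ^ 2 * √(τ / h)) :=
      (RX_mono ph pB le_rfl h1).trans (hAB h ph hτ)
    refine (UX_A hτ0 hC capA capB capC a b e).trans (add_le_add le_rfl ?_)
    rw [← hh]
    have k1 := key_sq (by positivity) hPA hP₀ RX_nonneg r1 r2
    rw [mul_comm PA P₀] at k1
    have k2 := mul_le_mul_of_nonneg_left k1 (by positivity : 0 ≤ 6 * h⁻¹)
    rw [inv_cost ph hτ0] at k2
    have k4 : 6 * √(P₀ * PA) * (√τ * √h) ≤ κ * (√τ * √h) := by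
      refine mul_le_mul_of_nonneg_right ?_ (by positivity)
      rw [hκ]
      linarith
    linarith
  · set h := τ / 2 ^ (b - 1) with hh
    have ph : 0 < h := by positivity
    have pA : 0 < τ / 2 ^ (a - 1) := by positivity
    have pC : 0 < cC / 2 ^ (e - 1) := by positivity
    have hτ : h ≤ τ := lvA b
    have r1 : RX I N s (τ / 2 ^ (a - 1)) h FA FB ≤ P₀ * (h ^ 2 * √(τ / h)) :=
      (RX_mono pA ph h1 le_rfl).trans (hAB h ph hτ)
    have r2 : RX I N s h (cC / 2 ^ (e - 1)) FB FC ≤ PB * (h ^ 2 * √(τ / h)) :=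
      (RX_mono ph pC le_rfl h2).trans (hBC h ph hτ)
    refine (UX_B hτ0 hC capA capB capC a b e).trans (add_le_add le_rfl ?_)
    rw [← hh]
    have k1 := key_sq (by positivity) hP₀ hPB RX_nonneg r1 r2
    have k2 := mul_le_mul_of_nonneg_left k1 (by positivity : 0 ≤ 6 * h⁻¹)
    rw [inv_cost ph hτ0] at k2
    have k4 : 6 * √(P₀ * PB) * (√τ * √h) ≤ κ * (√τ * √h) := by
      refine mul_le_mul_of_nonneg_right ?_ (by positivity)
      rw [hκ]
      linarith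
    linarith
  · set x := cC / 2 ^ (e - 1) with hx
    have px : 0 < x := by positivity
    set h := x / θ with hh
    have ph : 0 < h := by positivity
    have ex : x = θ * h := by rw [hh]; field_simp
    have hτ : h ≤ τ := by rw [hh, div_le_iff₀ hθ]; linarith
    have pA : 0 < τ / 2 ^ (a - 1) := by positivity
    have pB : 0 < τ / 2 ^ (b - 1) := by positivity
    have g1 : τ / 2 ^ (a - 1) ≤ h := by rw [hh, le_div_iff₀ hθ]; linarith
    have g2 : τ / 2 ^ (b - 1) ≤ h := by rw [hh, le_div_iff₀ hθ]; linarith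
    have r1 : RX I N s (τ / 2 ^ (b - 1)) x FB FC ≤ PB * (h ^ 2 * √(τ / h)) :=
      (RX_mono pB px g2 ex.le).trans (hBC h ph hτ)
    have r2 : RX I N s x (τ / 2 ^ (a - 1)) FC FA ≤ PA * (h ^ 2 * √(τ / h)) :=
      (RX_mono px pA ex.le g1).trans (hCA h ph hτ)
    refine (UX_C hτ0 hC capA capB capC a b e).trans (add_le_add le_rfl ?_)
    rw [← hx]
    have k1 := key_sq (by positivity) hPB hPA RX_nonneg r1 r2
    rw [mul_comm PB PA] at k1
    have k2 := mul_le_mul_of_nonneg_left k1 (by positivity : 0 ≤ 6 * x⁻¹)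
    have k3 : 6 * x⁻¹ * (√(PA * PB) * (h ^ 2 * √(τ / h))) =
        6 * h⁻¹ * ((√(PA * PB) / θ) * (h ^ 2 * √(τ / h))) := by
      rw [ex]
      field_simp
    rw [k3, inv_cost ph hτ0] at k2
    have k4 : 6 * (√(PA * PB) / θ) * (√τ * √h) ≤ κ * (√τ * √h) := by
      refine mul_le_mul_of_nonneg_right ?_ (by positivity)
      rw [hκ]
      linarith
    linarith
  · set x := cC / 2 ^ (e - 1) with hx
    have px : 0 < x := by positivity
    have pA : 0 < τ / 2 ^ (a - 1) := by positivity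
    have pB : 0 < τ / 2 ^ (b - 1) := by positivity
    refine (UX_C hτ0 hC capA capB capC a b e).trans (add_le_add le_rfl ?_)
    rw [← hx]
    have r1 : RX I N s (τ / 2 ^ (b - 1)) x FB FC ≤ RX I N s τ x FB FC :=
      RX_mono pB px (lvA b) le_rfl
    have r2 : RX I N s x (τ / 2 ^ (a - 1)) FC FA ≤ RX I N s x τ FC FA :=
      RX_mono px pA le_rfl (lvA a)
    have k1 : √(RX I N s (τ / 2 ^ (b - 1)) x FB FC * RX I N s x (τ / 2 ^ (a - 1)) FC FA) ≤ κ' * x :=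
      (Real.sqrt_le_sqrt (mul_le_mul r1 r2 RX_nonneg RX_nonneg)).trans (hT x h0.le (lvC e))
    have k2 := mul_le_mul_of_nonneg_left k1 (by positivity : 0 ≤ 6 * x⁻¹)
    have k3 : 6 * x⁻¹ * (κ' * x) = 6 * κ' := by field_simp
    rw [k3] at k2
    linarith

end

end Vale.Agent.P141.H228
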