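import Vale.Agent.P141.H8.Lab

/-!
# P141, line W, PROC (S2): localisation of the paths to a region without restarts

A hereditary region `W` of used cells below the scale `Λ`, without restarts.  The paths which are
followed only inside `W` are again paths (structure `Paths`), with the top scale `Λ`, the static
function `H j Λ`, the used cells `W`, no restarts, and the same births.  Example: one window of a
coarse threshold (`Wr`).
-/

namespace Vale.Agent.P141.H228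

open Finset
open Vale.Agent.P141.H315 Vale.Agent.P141.PL.H318 Vale.Agent.P141.H347 Vale.Agent.P141.H297
open Vale.Agent.P141.H8

noncomputable section

open scoped Classical

variable {X ι : Type*} {g : Grid X}

theorem fsc_ex (W : ℕ → X → Prop) (Λ k : ℕ) (x : X) : ∃ i, k ≤ i ∧ (W i x ∨ Λ ≤ i) :=
  ⟨max k Λ, le_max_left _ _, Or.inr (le_max_right _ _)⟩

/-- the first scale `≥ k` which is in the region or above `Λ` -/
def fsc (W : ℕ → X → Prop) (Λ k : ℕ) (x : X) : ℕ := Nat.find (fsc_ex W Λ k x)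

theorem fsc_spec (W : ℕ → X → Prop) (Λ k : ℕ) (x : X) :
    k ≤ fsc W Λ k x ∧ (W (fsc W Λ k x) x ∨ Λ ≤ fsc W Λ k x) := Nat.find_spec (fsc_ex W Λ k x)

theorem fsc_of_mem {W : ℕ → X → Prop} {Λ k : ℕ} {x : X} (h : W k x ∨ Λ ≤ k) : fsc W Λ k x = k :=
  le_antisymm (Nat.find_min' (fsc_ex W Λ k x) ⟨le_rfl, h⟩) (fsc_spec W Λ k x).1

theorem fsc_succ {W : ℕ → X → Prop} {Λ k : ℕ} {x : X} (hk : k < Λ) (h : ¬ W k x) :
    fsc W Λ k x = fsc W Λ (k + 1) x := by
  have h1 := fsc_spec W Λ k x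
  have h2 := fsc_spec W Λ (k + 1) x
  refine le_antisymm (Nat.find_min' (fsc_ex W Λ k x) ⟨by omega, h2.2⟩)
    (Nat.find_min' (fsc_ex W Λ (k + 1) x) ⟨?_, h1.2⟩)
  rcases h1.1.lt_or_eq with h3 | h3
  · omega
  · exfalso
    rw [← h3] at h1
    rcases h1.2 with h4 | h4
    · exact h h4
    · omega

/-- the path which is followed only inside the region -/
def cutV (W : ℕ → X → Prop) (Λ : ℕ) (V : ℕ → X → ℝ) (k : ℕ) (x : X) : ℝ := V (fsc W Λ k x) x

theorem cutV_of_mem {W : ℕ → X → Prop} {Λ k : ℕ} (V : ℕ → X → ℝ) {x : X} (h : W k x) :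
    cutV W Λ V k x = V k x := by unfold cutV; rw [fsc_of_mem (Or.inl h)]

theorem cutV_of_ge {W : ℕ → X → Prop} {Λ k : ℕ} (V : ℕ → X → ℝ) {x : X} (h : Λ ≤ k) :
    cutV W Λ V k x = V k x := by unfold cutV; rw [fsc_of_mem (Or.inr h)]

theorem cutV_top {W : ℕ → X → Prop} {Λ : ℕ} (V : ℕ → X → ℝ) (x : X) :
    cutV W Λ V Λ x = V Λ x := cutV_of_ge V le_rfl

theorem cutV_succ {W : ℕ → X → Prop} {Λ k : ℕ} (V : ℕ → X → ℝ) {x : X} (hk : k < Λ)
    (h : ¬ W k x) : cutV W Λ V k x = cutV W Λ V (k + 1) x := by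
  unfold cutV; rw [fsc_succ hk h]

section one

variable {S : CSys g ι}

/-- the local mass of the births of the scales `[k, Λ]` -/
def cutlm (w : LW S) (Λ : ℕ) (H : ℕ → X → ℝ) (k : ℕ) (x : X) : ℝ :=
  ∑ j ∈ Ico k (Λ + 1), lden w j k (H j) x

/-- **Localisation of one path.** -/
theorem cut_pth {w : LW S} {L : ℕ} {e : ℝ} {F : X → ℝ} {gd : ℕ → X → Prop}
    {V H : ℕ → X → ℝ} {rs : ℕ → X → Prop} {lm : ℕ → X → ℝ}
    (hP : Pth w L e F gd V H rs lm) {Λ : ℕ} (hΛ : Λ ≤ L) {W : ℕ → X → Prop}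
    (hc : ∀ k x y, y ∈ g.cube k x → (W k y ↔ W k x))
    (hup : ∀ k < Λ, ∀ x, W k x → W (k + 1) x) (hsub : ∀ k x, W k x → gd k x)
    (hrs : ∀ k < Λ, ∀ x, W k x → ¬ rs k x) :
    Pth w Λ e (H Λ) W (cutV W Λ V) H (fun _ _ => False) (cutlm w Λ H) := by
  have hle : ∀ k i x, k ≤ i → i ≤ Λ → W k x → W i x := by
    intro k i x hki
    induction i, hki using Nat.le_induction with
    | base => exact fun _ h => h
    | succ i hki ih => exact fun h1 h2 => hup i (by omega) x (ih (by omega) h2)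
  refine ⟨fun _ _ _ _ => Iff.rfl, fun _ _ h => h.elim, ?_, ?_, ?_, fun _ => rfl, ?_,
    fun _ _ h => h.elim, ?_, ?_, ?_, ?_, ?_, ?_, ?_, ?_⟩
  · intro k x y hy
    unfold cutlm
    refine sum_congr rfl fun j hj => ?_
    exact lden_const w (mem_Ico.1 hj).1 _ hy
  · intro k hk x hx
    rw [cutV_of_mem V hx]
    exact hP.step k (hk.trans hΛ) x (hsub k x hx)
  · intro k hk x hx
    exact cutV_succ V hk hx
  · intro k hk x hx _
    rw [cutV_of_mem V (hup k hk x hx)]
    exact hP.keep k (by omega) x (hsub k x hx) (hrs k hk x hx)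
  · intro k hk x hx
    unfold cutlm
    refine sum_congr rfl fun j hj => ?_
    rw [if_pos fun _ _ _ h => h]
  · intro k hk x hx
    exact hP.enH k (hk.trans hΛ) x (hsub k x hx)
  · intro k hk x hx
    have h1 := hP.enV k (hk.trans hΛ) x (hsub k x hx)
    refine le_trans (le_of_eq ?_) h1
    have h2 : ∀ y ∈ g.cube k x, cutV W Λ V k y = V k y := fun y hy =>
      cutV_of_mem V ((hc k x y hy).mpr hx)
    exact dot_congr h2 h2
  · intro k hk x hx
    refine le_trans ?_ (hP.mass k (hk.trans hΛ) x (hsub k x hx))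
    rw [hP.lm_eq k (hk.trans hΛ) x (hsub k x hx)]
    unfold cutlm
    refine le_trans (le_of_eq (sum_congr rfl fun j hj => ?_)) (sum_le_sum_of_subset_of_nonneg
      (Ico_subset_Ico_right (by omega : Λ + 1 ≤ L + 1)) fun j _ _ => ?_)
    · obtain ⟨h1, h2⟩ := mem_Ico.1 hj
      rw [if_pos]
      intro i hi1 hi2
      exact hrs i (by omega) x (hle k i x hi1 (by omega) hx)
    · split_ifs
      · exact Vale.Agent.P141.H347.lden_nonneg w _ _ _ _
      · exact le_rfl
  · intro k hk x hx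
    refine le_trans (le_of_eq (sum_eq_zero fun j _ => sum_eq_zero fun z _ =>
      if_neg fun h => h)) ?_
    have := Vale.Agent.P141.H297.cd_pos g k x
    positivity
  · intro k hk x hx
    refine le_trans ?_ (hP.drop k (hk.trans hΛ) x (hsub k x hx))
    refine sum_le_sum fun j _ => sum_le_sum fun z _ => ?_
    by_cases h1 : W j z
    · rw [if_pos h1, if_pos (hsub j z h1)]
    · rw [if_neg h1]
      split_ifs
      · exact dr_nonneg _ _ _ _
      · exact le_rfl
  · intro k hk x hx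
    refine le_trans (le_of_eq (sum_eq_zero fun j _ => sum_eq_zero fun z _ =>
      if_neg fun h => h)) ?_
    have h2 := Vale.Agent.P141.H297.cd_pos g k x
    have h3 : 0 ≤ dot (g.cube k x) (H k) (H k) := sum_nonneg fun _ _ => mul_self_nonneg _
    have h4 := hP.enH k (hk.trans hΛ) x (hsub k x hx)
    nlinarith
  · intro k hk x hx
    refine le_trans ?_ (hP.move k (hk.trans hΛ) x (hsub k x hx))
    refine sum_le_sum fun j hj => sum_le_sum fun z _ => ?_
    rw [mem_range] at hj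
    by_cases h1 : W j z
    · rw [cutV_of_mem V h1, cutV_of_mem V (hup j (by omega) z h1)]
    · rw [cutV_succ V (by omega) h1, sub_self, mul_zero]
      exact mul_self_nonneg _

end one

section fam

variable {J : Type*} {S : J → CSys g ι} {w : ∀ j, LW (S j)} {L : ℕ} {e : ℝ}
  {F : J → X → ℝ} {gd : ℕ → X → Prop} {V H : J → ℕ → X → ℝ} {rs : J → ℕ → X → Prop}
  {lm : J → ℕ → X → ℝ}

/-- **Localisation of a family of paths.** -/
theorem cut_paths (hP : Paths w L e F gd V H rs lm) {Λ : ℕ} (hΛ : Λ ≤ L) {W : ℕ → X → Prop}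
    (hc : ∀ k x y, y ∈ g.cube k x → (W k y ↔ W k x))
    (hup : ∀ k < Λ, ∀ x, W k x → W (k + 1) x) (hsub : ∀ k x, W k x → gd k x)
    (hrs : ∀ j, ∀ k < Λ, ∀ x, W k x → ¬ rs j k x) :
    Paths w Λ e (fun j => H j Λ) W (fun j => cutV W Λ (V j)) H (fun _ _ _ => False)
      (fun j => cutlm (w j) Λ (H j)) where
  path j := cut_pth (hP.path j) hΛ hc hup hsub (hrs j)
  gd_const := hc
  gd_up := hup

end fam

section win

variable {J : Type*} [Fintype J] {S : J → CSys g ι} {w : ∀ j, LW (S j)} {L : ℕ} {e : ℝ}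
  {F : J → X → ℝ} {gd : ℕ → X → Prop} {V H : J → ℕ → X → ℝ} {rs : J → ℕ → X → Prop}
  {lm : J → ℕ → X → ℝ} {e0 C2 : ℝ} {ud : ℕ → X → Prop} {x0 : X} {R : ℕ}

/-- inside a window there are no restarts -/
theorem no_rs_win {Λ : ℕ} (hΛ : Λ ≤ L) {z : X} (j : J) {k : ℕ} (hk : k < Λ) {y : X}
    (h : Wr g ud (tp w L gd V H rs e0 C2) Λ z k y) : ¬ rs j k y := by
  obtain ⟨_, _, _, h4⟩ := h
  obtain ⟨_, _, h6⟩ := stay_of_lt w L gd V H rs e0 C2 (k := k) (x := y) (by omega)
    (by rw [h4]; exact hk)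
  exact (h6.1 y (g.mem _ _)).2.1 j

/-- **The paths cut to one window.**  `ud` is any region of used cells below a cell `(R, x0)`. -/
theorem cut_win (hP : Paths w L e F gd V H rs lm) (hu : Rgn g gd R x0 ud) (hR : R ≤ L) {Λ : ℕ}
    (hΛ : Λ ≤ R) (z : X) :
    Paths w Λ e (fun j => H j Λ) (Wr g ud (tp w L gd V H rs e0 C2) Λ z)
      (fun j => cutV (Wr g ud (tp w L gd V H rs e0 C2) Λ z) Λ (V j)) H (fun _ _ _ => False)
      (fun j => cutlm (w j) Λ (H j)) := by
  have hl : Lab g L (tp w L gd V H rs e0 C2) := lab_tp w L gd V H rs e0 C2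
  refine cut_paths hP (hΛ.trans hR) ?_ ?_ ?_ ?_
  · intro k x y hy
    unfold Wr
    constructor
    · rintro ⟨h1, h2, h3, h4⟩
      have h5 : x ∈ g.cube k y := by rw [g.eq_of_mem k x y hy]; exact g.mem k x
      refine ⟨(hu.const k x y hy).1 h1, h2, g.cube_subset h2 h3 h5, ?_⟩
      rw [hl.const k (by omega) y x h5]; exact h4
    · rintro ⟨h1, h2, h3, h4⟩
      refine ⟨(hu.const k x y hy).2 h1, h2, g.cube_subset h2 h3 hy, ?_⟩
      rw [hl.const k (by omega) x y hy]; exact h4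
  · rintro k hk y ⟨h1, h2, h3, h4⟩
    refine ⟨hu.up k (by omega) y h1, hk, h3, ?_⟩
    rw [hl.btw k (by omega) y (k + 1) (by omega) (by omega), h4]
  · rintro k y ⟨h1, h2, h3, h4⟩
    exact hu.sub k y h1
  · intro j k hk y h
    exact no_rs_win (by omega) j hk h

/-- the cells of one window are a subfamily without restarts and with drop at most `e0` -/
theorem cut_sub (hP : Paths w L e F gd V H rs lm) (he0 : 0 ≤ e0) (hu : Rgn g gd R x0 ud)
    (hR : R ≤ L) {Λ : ℕ} (hΛ : Λ ≤ R) (z : X) :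
    Sub S Λ (Wr g ud (tp w L gd V H rs e0 C2) Λ z) H (fun _ _ _ => False) Λ
      (Wr g ud (tp w L gd V H rs e0 C2) Λ z) 0 e0 := by
  have hC := cut_win (e0 := e0) (C2 := C2) hP hu hR hΛ z
  have hS := sub_window (e0 := e0) (C0 := C2) hP he0 (hΛ.trans hR)
    (pd := fun k y => k ≤ Λ ∧ y ∈ g.cube Λ z ∧ ud k y) (fun k x y hy => by
      constructor
      · rintro ⟨h1, h2, h3⟩
        have h5 : x ∈ g.cube k y := by rw [g.eq_of_mem k x y hy]; exact g.mem k x
        exact ⟨h1, g.cube_subset h1 h2 h5, (hu.const k x y hy).1 h3⟩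
      · rintro ⟨h1, h2, h3⟩
        exact ⟨h1, g.cube_subset h1 h2 hy, (hu.const k x y hy).2 h3⟩)
    (fun k hk x hx => ⟨hk, hx.2.1, hu.up k (by omega) x hx.2.2⟩)
  have he : ∀ k y, (Wr g ud (tp w L gd V H rs e0 C2) Λ z k y ↔
      (k ≤ Λ ∧ (k ≤ Λ ∧ y ∈ g.cube Λ z ∧ ud k y) ∧ gd k y ∧
        tp w L gd V H rs e0 C2 k y = Λ)) := by
    intro k y
    constructor
    · rintro ⟨h1, h2, h3, h4⟩
      exact ⟨h2, ⟨h2, h3, h1⟩, hu.sub k y h1, h4⟩
    · rintro ⟨h1, ⟨_, h2, h3⟩, h4, h5⟩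
      exact ⟨h3, h1, h2, h5⟩
  refine ⟨le_rfl, hC.gd_const, hC.gd_up, fun _ _ _ h => h, ?_, ?_⟩
  · intro j k hk x hx
    rw [sum_eq_zero fun i _ => sum_eq_zero fun y _ => ind_false fun h => h.2, zero_mul]
  · intro j k hk x hx
    refine le_trans (le_of_eq ?_) (hS.drop j k hk x ((he k x).1 hx))
    refine sum_congr rfl fun m _ => sum_congr rfl fun y _ => ?_
    unfold du
    by_cases h : Wr g ud (tp w L gd V H rs e0 C2) Λ z m y
    · rw [if_pos h, if_pos ((he m y).1 h)]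
    · rw [if_neg h, if_neg fun h' => h ((he m y).2 h')]

/-- **Packing of the windows of a finer threshold inside one window**, for the cut paths. -/
theorem cut_packing (hP : Paths w L e F gd V H rs lm) (he0 : 0 ≤ e0) (hu : Rgn g gd R x0 ud)
    (hR : R ≤ L) {Λ : ℕ} (hΛ : Λ ≤ R) (z : X) {Cg : ℝ} (hM : ∀ j, Mix (S j) Cg) (hC : 0 ≤ Cg)
    {B : ℝ} (hB : ∀ k x, cd g (k + 1) x ≤ B * cd g k x) {e' C3 : ℝ} (he' : 0 < e')
    (hC3 : 4 * Fintype.card J * (1 + 2 * Cg) ≤ C3) {k : ℕ} {x : X} (hk : k ≤ Λ)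
    (hg : Wr g ud (tp w L gd V H rs e0 C2) Λ z k x) :
    ∑ i ∈ range (k + 1), ∑ y ∈ g.cube k x,
      ind (Wr g ud (tp w L gd V H rs e0 C2) Λ z i y ∧
        tp w Λ (Wr g ud (tp w L gd V H rs e0 C2) Λ z)
          (fun j => cutV (Wr g ud (tp w L gd V H rs e0 C2) Λ z) Λ (V j)) H
          (fun _ _ _ => False) e' C3 i y = i) ≤
      2 * (2 + B + 2 * B * Fintype.card J * (e0 / e')) * cd g k x := by
  have h := packing_sub (cut_win (e0 := e0) (C2 := C2) hP hu hR hΛ z)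
    (cut_sub (e0 := e0) (C2 := C2) hP he0 hu hR hΛ z) hM hC hB he' hC3 hk hg
  rw [mul_zero, add_zero] at h
  exact h

end win

end

end Vale.Agent.P141.H228
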