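import Vale.Agent.P141.H228.GaugeI
import Vale.Agent.P141.H457.DictBC
import Vale.Agent.P141.H797.PairS

/-!
# P141, line (A): the pair of the gauge at the hub `x₁`

* `rBC_g` : the pair `(Bg b, Cz)` at a node in the letters of `pw`, for every stack `Cz` with first
  part `Th C / √2` and norm `⟪C, W C⟫`;
* `rBC_g_le` : at most the right side of `H457.rBC_le` (raw first slot);
* `rBC_g_stk` : at most the pair with the stack `Cs = (Th C / √2, √be C)`.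
-/

namespace Vale.Agent.P141.H228.Gauge

open Finset Matrix
open Vale.Agent.P075 (Ix val)
open Vale.Agent.P141.PL (Pt iv hs ix mem_iv ix_ix)
open Vale.Agent.P141.PL.H588 (hd)
open Vale.Agent.P141.PL.H103 Vale.Agent.P141.H103
open Vale.Agent.P141.H585.PairCh (phs)
open Vale.Agent.P141.H652 (Th Th_psd Th_le_two)
open Vale.Agent.P141.H408 (sq sq_spec Wg Wg_pd QL hdL rBC)
open Vale.Agent.P141.H419.PairW (pq pg pg_rect)
open Vale.Agent.P141.H420 (Tr)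
open Vale.Agent.P141.H874
open Vale.Agent.P141.H784 (pw PW pw_eq)
open Vale.Agent.P141.H457 (CM CM_mul TD WD WD_eq PG QL_eq hdL_eq WD_posDef TD_psd)
open Vale.Agent.P141.H797 (phs_iso tr_iso comp_pw)

noncomputable section

variable {κ : Type*} [Fintype κ] [DecidableEq κ]

/-! ### The isometry of the first label block -/

/-- the first label block -/
def Vi (k : ℕ) (κ : Type*) [DecidableEq κ] : Matrix (Ix k × (κ ⊕ κ)) (Ix k × κ) ℝ := fun p q =>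
  if p.1 = q.1 ∧ p.2 = Sum.inl q.2 then 1 else 0

theorem Vt_mul {ρ : Type*} (k : ℕ) (M : Matrix (Ix k × (κ ⊕ κ)) ρ ℝ) (q : Ix k × κ) (j : ρ) :
    ((Vi k κ)ᵀ * M) q j = M (q.1, Sum.inl q.2) j := by
  rw [Matrix.mul_apply, Finset.sum_eq_single (q.1, Sum.inl q.2)]
  · simp [Vi]
  · intro p _ hp
    rw [transpose_apply, Vi, if_neg, zero_mul]
    rintro ⟨h1, h2⟩
    exact hp (Prod.ext h1 h2)
  · intro h
    exact absurd (Finset.mem_univ _) h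

theorem V_mul {ρ : Type*} (k : ℕ) (M : Matrix (Ix k × κ) ρ ℝ) (p : Ix k × (κ ⊕ κ)) (j : ρ) :
    (Vi k κ * M) p j = Sum.elim (fun a => M (p.1, a) j) (fun _ => 0) p.2 := by
  rcases p with ⟨i, a | a⟩
  · rw [Matrix.mul_apply, Finset.sum_eq_single (i, a)]
    · simp [Vi]
    · intro q _ hq
      rw [Vi, if_neg, zero_mul]
      rintro ⟨h1, h2⟩
      exact hq (Prod.ext h1.symm (Sum.inl.inj h2).symm)
    · intro h
      exact absurd (Finset.mem_univ _) h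
  · rw [Matrix.mul_apply]
    refine Finset.sum_eq_zero fun q _ => ?_
    rw [Vi, if_neg, zero_mul]
    rintro ⟨_, h2⟩
    exact Sum.inr_ne_inl h2

theorem Vi_iso (k : ℕ) : (Vi k κ)ᵀ * Vi k κ = 1 := by
  ext q q'
  rw [Vt_mul, Vi, Matrix.one_apply]
  by_cases h : q = q'
  · subst h
    simp
  · rw [if_neg h, if_neg]
    rintro ⟨h1, h2⟩
    exact h (Prod.ext h1 (Sum.inl.inj h2))

theorem sk_V (k : ℕ) : sk k (κ ⊕ κ) * Vi k κ = Vi k κ * sk k κ := by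
  ext p q
  rw [V_mul, Matrix.mul_apply, Finset.sum_eq_single (q.1, Sum.inl q.2)]
  · rcases p with ⟨i, a | a⟩
    · simp only [Vi, sk, kroneckerMap_apply, Sum.elim_inl, and_self, if_true, mul_one,
        Matrix.one_apply, Sum.inl.injEq]
    · simp only [Vi, sk, kroneckerMap_apply, Sum.elim_inr, and_self, if_true, mul_one,
        Matrix.one_apply, reduceCtorEq, if_false, mul_zero]
  · intro p' _ hp'
    rw [Vi, if_neg, mul_zero]
    rintro ⟨h1, h2⟩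
    exact hp' (Prod.ext h1 h2)
  · intro h
    exact absurd (Finset.mem_univ _) h

/-! ### The column matrices -/

theorem CM_Bg (b : ℤ → ℤ → κ → ℝ) (k a : ℕ) (n m : ℤ) :
    CM (Bg b) k a n m = √2 • (Vi k κ * CM b k a n m) := by
  ext p j
  rw [Matrix.smul_apply, V_mul, smul_eq_mul]
  rcases p with ⟨i, c | c⟩
  · simp only [CM, Bg, Sum.elim_inl, Pi.smul_apply, smul_eq_mul]
    ring
  · simp only [CM, Bg, Sum.elim_inr, Pi.zero_apply, mul_zero]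

theorem CP_Bg (b : ℤ → ℤ → κ → ℝ) (k a : ℕ) (n m : ℤ) :
    CP (Bg b) k a n m = Vi k κ * ((2 : ℝ) • CP b k a n m) * (Vi k κ)ᵀ := by
  rw [← CM_mul, CM_Bg, transpose_smul, transpose_mul, Matrix.smul_mul, Matrix.mul_smul, smul_smul,
    Real.mul_self_sqrt (by norm_num), ← CM_mul, Matrix.mul_smul, Matrix.smul_mul]
  simp only [Matrix.mul_assoc]

omit [DecidableEq κ] in
theorem DB_mul_apply {ρ : Type*} (k : ℕ) (m : ℤ) (F : ℤ → Matrix κ κ ℝ)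
    (M : Matrix (Ix k × κ) ρ ℝ) (p : Ix k × κ) (j : ρ) :
    (DB k m F * M) p j = ∑ a, F (2 ^ k * m + val k p.1) p.2 a * M (p.1, a) j := by
  rw [Matrix.mul_apply, Fintype.sum_prod_type, Finset.sum_eq_single p.1]
  · refine Finset.sum_congr rfl fun a _ => ?_
    simp [DB]
  · intro i _ hi
    refine Finset.sum_eq_zero fun a _ => ?_
    rw [DB, if_neg (fun h => hi h.symm), zero_mul]
  · intro h
    exact absurd (Finset.mem_univ _) h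

section stack

variable {Cz : ℤ → ℤ → κ ⊕ κ → ℝ} {C : ℤ → ℤ → κ → ℝ} {F W : ℤ → Matrix κ κ ℝ} {k : ℕ} {m : Pt}

/-- the points of a cell -/
theorem pt_mem (k : ℕ) (n : ℤ) (i : Ix k) : 2 ^ k * n + (val k i : ℤ) ∈ iv k n := by
  unfold PL.iv
  rw [mem_Ico]
  have h2 := P075.val_lt k i
  constructor
  · have : (0 : ℤ) ≤ (val k i : ℤ) := Int.natCast_nonneg _
    linarith
  · have : (val k i : ℤ) < 2 ^ k := by exact_mod_cast h2
    linarith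

theorem st_V (h1 : ∀ z ∈ iv k m.1, ∀ x ∈ iv k m.2.2, ∀ a,
      Cz z x (Sum.inl a) = (√2)⁻¹ * (F x *ᵥ C z x) a) :
    (Vi k κ)ᵀ * CM (fun x z => Cz z x) k k m.1 m.2.2 =
      (√2)⁻¹ • (DB k m.2.2 F * CM (fun x z => C z x) k k m.1 m.2.2) := by
  ext q j
  rw [Vt_mul, Matrix.smul_apply, DB_mul_apply, smul_eq_mul]
  simp only [CM]
  rw [h1 _ (pt_mem k m.1 j) _ (pt_mem k m.2.2 q.1), mulVec, dotProduct, Finset.mul_sum,
    Finset.mul_sum, Finset.mul_sum]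
  refine Finset.sum_congr rfl fun a _ => ?_
  ring

theorem st_K (h2 : ∀ z ∈ iv k m.1, ∀ z' ∈ iv k m.1, ∀ x ∈ iv k m.2.2,
      Cz z x ⬝ᵥ Cz z' x = C z x ⬝ᵥ W x *ᵥ C z' x) :
    (CM (fun x z => Cz z x) k k m.1 m.2.2)ᵀ * CM (fun x z => Cz z x) k k m.1 m.2.2 =
      (CM (fun x z => C z x) k k m.1 m.2.2)ᵀ * DB k m.2.2 W *
        CM (fun x z => C z x) k k m.1 m.2.2 := by
  ext j j'
  rw [Matrix.mul_assoc, Matrix.mul_apply, Matrix.mul_apply, Fintype.sum_prod_type,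
    Fintype.sum_prod_type]
  refine Finset.sum_congr rfl fun i _ => ?_
  have e := h2 _ (pt_mem k m.1 j) _ (pt_mem k m.1 j') _ (pt_mem k m.2.2 i)
  set N := (√((2 : ℝ) ^ k * 2 ^ k))⁻¹ with hN
  have e1 : ∑ x, (CM (fun x z => Cz z x) k k m.1 m.2.2)ᵀ j (i, x) *
      CM (fun x z => Cz z x) k k m.1 m.2.2 (i, x) j' = N * N *
      (Cz (2 ^ k * m.1 + val k j) (2 ^ k * m.2.2 + val k i) ⬝ᵥ
        Cz (2 ^ k * m.1 + val k j') (2 ^ k * m.2.2 + val k i)) := by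
    rw [dotProduct, Finset.mul_sum]
    refine Finset.sum_congr rfl fun x _ => ?_
    simp only [CM, transpose_apply]
    ring
  rw [e1, e, dotProduct, Finset.mul_sum]
  refine Finset.sum_congr rfl fun x _ => ?_
  rw [DB_mul_apply, mulVec, dotProduct, Finset.mul_sum, Finset.mul_sum, Finset.mul_sum]
  refine Finset.sum_congr rfl fun a _ => ?_
  simp only [CM, transpose_apply]
  ring

/-- **The pair of the gauge at a node.** -/
theorem rBC_g (b : ℤ → ℤ → κ → ℝ) {y z : ℝ} (hy : 0 < y) (hz : 0 < z)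
    (hF : ∀ x, (F x)ᵀ = F x)
    (h1 : ∀ z ∈ iv k m.1, ∀ x ∈ iv k m.2.2, ∀ a,
      Cz z x (Sum.inl a) = (√2)⁻¹ * (F x *ᵥ C z x) a)
    (h2 : ∀ z ∈ iv k m.1, ∀ z' ∈ iv k m.1, ∀ x ∈ iv k m.2.2,
      Cz z x ⬝ᵥ Cz z' x = C z x ⬝ᵥ W x *ᵥ C z' x) :
    rBC (Bg b) Cz k m y z = 2⁻¹ * (4 ^ k * (phs (y ^ 2) ((2 : ℝ) • CP b k k m.2.1 m.2.2) *
      (sk k κ * pw (z ^ 2)⁻¹ (DB k m.2.2 F) (DB k m.2.2 W)
        (CM (fun x z => C z x) k k m.1 m.2.2) * sk k κ)).trace) := by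
  have hy2 : 0 < y ^ 2 := by positivity
  have hz2 : 0 < z ^ 2 := by positivity
  have hs : (Vi k κ)ᵀ * sk k (κ ⊕ κ) = sk k κ * (Vi k κ)ᵀ := by
    have := congrArg transpose (sk_V (κ := κ) k)
    rwa [transpose_mul, transpose_mul, sk_tr, sk_tr] at this
  unfold rBC
  rw [hdL_eq, QL_eq, QL_eq]
  have eB : CP (fun x w => (fun y x => Bg b x y) w x) k k m.2.1 m.2.2 =
      Vi k κ * ((2 : ℝ) • CP b k k m.2.1 m.2.2) * (Vi k κ)ᵀ := CP_Bg b k k m.2.1 m.2.2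
  have eC : CP (fun x w => Cz w x) k k m.1 m.2.2 = CM (fun x z => Cz z x) k k m.1 m.2.2 *
      (CM (fun x z => Cz z x) k k m.1 m.2.2)ᵀ := (CM_mul _ k k m.1 m.2.2).symm
  have p2 : ((2 : ℝ) • CP b k k m.2.1 m.2.2).PosSemidef :=
    (CP_psd b k k m.2.1 m.2.2).smul (by norm_num)
  rw [eB, eC, phs_iso (Vi_iso k) p2 hy2, tr_iso]
  have e1 : (Vi k κ)ᵀ * (sk k (κ ⊕ κ) * phs (z ^ 2) (CM (fun x z => Cz z x) k k m.1 m.2.2 *
      (CM (fun x z => Cz z x) k k m.1 m.2.2)ᵀ) * sk k (κ ⊕ κ)) * Vi k κ =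
      sk k κ * ((Vi k κ)ᵀ * phs (z ^ 2) (CM (fun x z => Cz z x) k k m.1 m.2.2 *
      (CM (fun x z => Cz z x) k k m.1 m.2.2)ᵀ) * Vi k κ) * sk k κ := by
    calc _ = ((Vi k κ)ᵀ * sk k (κ ⊕ κ)) * phs (z ^ 2) (CM (fun x z => Cz z x) k k m.1 m.2.2 *
          (CM (fun x z => Cz z x) k k m.1 m.2.2)ᵀ) * (sk k (κ ⊕ κ) * Vi k κ) := by
          simp only [Matrix.mul_assoc]
      _ = _ := by
          rw [hs, sk_V]
          simp only [Matrix.mul_assoc]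
  have hT : (DB k m.2.2 F)ᵀ = DB k m.2.2 F := DB_tr hF
  rw [e1, comp_pw hz2 hT (st_K h2) (st_V h1)]
  have h3 : ((√(2 : ℝ))⁻¹) ^ 2 = 2⁻¹ := by
    rw [inv_pow, Real.sq_sqrt (by norm_num)]
  rw [h3, Matrix.mul_smul, Matrix.smul_mul, Matrix.mul_smul, trace_smul, smul_eq_mul]
  ring

end stack

/-! ### The stack with `W = Wg` -/

section node

variable {be l : ℝ} {N : ℕ} {S : ℤ} {G Kq : ℤ → ℕ → ℤ → Matrix κ κ ℝ}

theorem Cg_1 (be l : ℝ) (N : ℕ) (S : ℤ) (Kq : ℤ → ℕ → ℤ → Matrix κ κ ℝ) (c x0 : ℤ)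
    (C : ℤ → ℤ → κ → ℝ) (k : ℕ) (m : Pt) : ∀ z ∈ iv k m.1, ∀ x ∈ iv k m.2.2, ∀ a,
    Cg be l N S Kq c x0 C k z x (Sum.inl a) =
      (√2)⁻¹ * (Th l N S (Kq x) c x0 x k m.1 *ᵥ C z x) a := by
  intro z hz x _ a
  unfold Cg
  rw [mem_iv.1 hz]
  rfl

theorem Cg_2 (hbe : 0 < be) (h : ∀ x, Tr l N (G x) (Kq x)) (c x0 : ℤ)
    (C : ℤ → ℤ → κ → ℝ) (k : ℕ) (m : Pt) : ∀ z ∈ iv k m.1, ∀ z' ∈ iv k m.1, ∀ x ∈ iv k m.2.2,
    Cg be l N S Kq c x0 C k z x ⬝ᵥ Cg be l N S Kq c x0 C k z' x =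
      C z x ⬝ᵥ (be • (1 : Matrix κ κ ℝ) + Th l N S (Kq x) c x0 x k m.1) *ᵥ C z' x := by
  intro z hz z' hz' x _
  rw [norm_g hbe h c x0 C k ((mem_iv.1 hz).trans (mem_iv.1 hz').symm), mem_iv.1 hz]
  rfl

/-- the stack with the weight `Th² / 2 + be` -/
def Cs (be l : ℝ) (N : ℕ) (S : ℤ) (Kq : ℤ → ℕ → ℤ → Matrix κ κ ℝ) (c x0 : ℤ)
    (C : ℤ → ℤ → κ → ℝ) (k : ℕ) (z x : ℤ) : κ ⊕ κ → ℝ :=
  Sum.elim ((√2)⁻¹ • (Th l N S (Kq x) c x0 x k (ix k z) *ᵥ C z x)) (√be • C z x)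

theorem Cs_1 (be l : ℝ) (N : ℕ) (S : ℤ) (Kq : ℤ → ℕ → ℤ → Matrix κ κ ℝ) (c x0 : ℤ)
    (C : ℤ → ℤ → κ → ℝ) (k : ℕ) (m : Pt) : ∀ z ∈ iv k m.1, ∀ x ∈ iv k m.2.2, ∀ a,
    Cs be l N S Kq c x0 C k z x (Sum.inl a) =
      (√2)⁻¹ * (Th l N S (Kq x) c x0 x k m.1 *ᵥ C z x) a := by
  intro z hz x _ a
  unfold Cs
  rw [mem_iv.1 hz]
  rfl

theorem Cs_2 (hbe : 0 ≤ be) (h : ∀ x, Tr l N (G x) (Kq x)) (c x0 : ℤ)
    (C : ℤ → ℤ → κ → ℝ) (k : ℕ) (m : Pt) : ∀ z ∈ iv k m.1, ∀ z' ∈ iv k m.1, ∀ x ∈ iv k m.2.2,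
    Cs be l N S Kq c x0 C k z x ⬝ᵥ Cs be l N S Kq c x0 C k z' x =
      C z x ⬝ᵥ (be • (1 : Matrix κ κ ℝ) + (1 / 2 : ℝ) • (Th l N S (Kq x) c x0 x k m.1 *
        Th l N S (Kq x) c x0 x k m.1)) *ᵥ C z' x := by
  intro z hz z' hz' x _
  have h2 : (√(2 : ℝ))⁻¹ * (√2)⁻¹ = 1 / 2 := by
    rw [← mul_inv, Real.mul_self_sqrt (by norm_num)]
    norm_num
  have hT : (Th l N S (Kq x) c x0 x k m.1)ᵀ = Th l N S (Kq x) c x0 x k m.1 :=
    (Th_psd (h x) c x0 x k m.1).isHermitian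
  unfold Cs
  rw [sumElim_dotProduct_sumElim, mem_iv.1 hz, mem_iv.1 hz', smul_dotProduct, dotProduct_smul,
    smul_eq_mul, smul_eq_mul, ← mul_assoc, h2, smul_dotProduct, dotProduct_smul, smul_eq_mul,
    smul_eq_mul, ← mul_assoc, Real.mul_self_sqrt hbe, add_mulVec, dotProduct_add, smul_mulVec,
    dotProduct_smul, one_mulVec, smul_eq_mul, smul_mulVec, dotProduct_smul, smul_eq_mul,
    ← mulVec_mulVec, dotProduct_mulVec (C z x) (Th l N S (Kq x) c x0 x k m.1),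
    ← mulVec_transpose, hT]
  ring

/-- **Raw first slot.** -/
theorem rBC_g_le (hbe : 0 < be) (h : ∀ x, Tr l N (G x) (Kq x)) (c x0 : ℤ)
    (b C : ℤ → ℤ → κ → ℝ) (k : ℕ) (m : Pt) {y z : ℝ} (hy : 0 < y) (hz : 0 < z) :
    rBC (Bg b) (Cg be l N S Kq c x0 C k) k m y z ≤
      4 ^ k * (CP b k k m.2.1 m.2.2 * (sk k κ *
        PG be (z ^ 2) (fun a x j => Th l N S (Kq x) c x0 x a j) (fun x z => C z x) k k m.1 m.2.2 *
        sk k κ)).trace := by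
  have hz2 : 0 < z ^ 2 := by positivity
  have hp : ∀ a x j, (Th l N S (Kq x) c x0 x a j).PosSemidef := fun a x j =>
    Th_psd (h x) c x0 x a j
  rw [rBC_g (F := fun x => Th l N S (Kq x) c x0 x k m.1)
    (W := fun x => be • (1 : Matrix κ κ ℝ) + Th l N S (Kq x) c x0 x k m.1) (C := C) b hy hz
    (fun x => (hp k x m.1).isHermitian) (Cg_1 be l N S Kq c x0 C k m) (Cg_2 hbe h c x0 C k m)]
  have e : pw (z ^ 2)⁻¹ (DB k m.2.2 fun x => Th l N S (Kq x) c x0 x k m.1)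
      (DB k m.2.2 fun x => be • (1 : Matrix κ κ ℝ) + Th l N S (Kq x) c x0 x k m.1)
      (CM (fun x z => C z x) k k m.1 m.2.2) =
      PG be (z ^ 2) (fun a x j => Th l N S (Kq x) c x0 x a j) (fun x z => C z x) k k m.1 m.2.2 := by
    unfold PG
    rw [← CM_mul, pg_rect hz2 (WD_posDef hbe hp k k m.1 m.2.2).posSemidef, pw_eq]
    rfl
  rw [e]
  have pZ : (sk k κ * PG be (z ^ 2) (fun a x j => Th l N S (Kq x) c x0 x a j)
      (fun x z => C z x) k k m.1 m.2.2 * sk k κ).PosSemidef :=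
    P075.psd_conj_symm (H457.PG_psd hz2 hbe hp _ k k m.1 m.2.2) (sk_tr k)
  have p2 : ((2 : ℝ) • CP b k k m.2.1 m.2.2).PosSemidef :=
    (CP_psd b k k m.2.1 m.2.2).smul (by norm_num)
  have h1 := P075.trace_mul_nonneg (H457.phs_sub (by positivity : 0 < y ^ 2) p2) pZ
  rw [Matrix.sub_mul, trace_sub, Matrix.smul_mul, trace_smul, smul_eq_mul] at h1
  have h4 : (0 : ℝ) < 4 ^ k := by positivity
  nlinarith [mul_le_mul_of_nonneg_left (sub_nonneg.1 h1) h4.le]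

/-- **The stack with the weight `Th² / 2 + be`.** -/
theorem rBC_g_stk (hbe : 0 < be) (h : ∀ x, Tr l N (G x) (Kq x)) (c x0 : ℤ)
    (b C : ℤ → ℤ → κ → ℝ) (k : ℕ) (m : Pt) {y z : ℝ} (hy : 0 < y) (hz : 0 < z) :
    rBC (Bg b) (Cg be l N S Kq c x0 C k) k m y z ≤
      rBC (Bg b) (Cs be l N S Kq c x0 C k) k m y z := by
  have hz2 : 0 < z ^ 2 := by positivity
  have hy2 : 0 < y ^ 2 := by positivity
  have hp : ∀ a x j, (Th l N S (Kq x) c x0 x a j).PosSemidef := fun a x j =>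
    Th_psd (h x) c x0 x a j
  set T : ℤ → Matrix κ κ ℝ := fun x => Th l N S (Kq x) c x0 x k m.1 with hT
  have hTs : ∀ x, (T x)ᵀ = T x := fun x => (hp k x m.1).isHermitian
  rw [rBC_g (F := T) (W := fun x => be • (1 : Matrix κ κ ℝ) + T x) (C := C) b hy hz hTs
      (Cg_1 be l N S Kq c x0 C k m) (Cg_2 hbe h c x0 C k m),
    rBC_g (F := T) (W := fun x => be • (1 : Matrix κ κ ℝ) + (1 / 2 : ℝ) • (T x * T x)) (C := C) b
      hy hz hTs (Cs_1 be l N S Kq c x0 C k m) (Cs_2 hbe.le h c x0 C k m)]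
  refine mul_le_mul_of_nonneg_left (mul_le_mul_of_nonneg_left ?_ (by positivity)) (by norm_num)
  set cM := CM (fun x z => C z x) k k m.1 m.2.2 with hcM
  set W₀ := DB k m.2.2 fun x => be • (1 : Matrix κ κ ℝ) + (1 / 2 : ℝ) • (T x * T x) with hW₀
  set W₁ := DB k m.2.2 fun x => be • (1 : Matrix κ κ ℝ) + T x with hW₁
  set Θ := DB k m.2.2 T with hΘ
  have hΘs : Θᵀ = Θ := DB_tr hTs
  have pW₀ : W₀.PosSemidef := DB_psd fun x => (PosSemidef.one.smul hbe.le).add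
    (by
      have := (P075.psd_mul_transpose (T x)).smul (by norm_num : (0 : ℝ) ≤ 1 / 2)
      rwa [hTs x] at this)
  have pE : (W₁ - W₀).PosSemidef := by
    rw [hW₁, hW₀, H457.DB_sub]
    refine DB_psd fun x => ?_
    have h3 := half_psd (hp k x m.1) (Th_le_two (h x) c x0 x k m.1)
    have e : be • (1 : Matrix κ κ ℝ) + T x - (be • (1 : Matrix κ κ ℝ) + (1 / 2 : ℝ) • (T x * T x)) =
        T x - (1 / 2 : ℝ) • (T x * T x) := by abel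
    rw [e]
    exact h3
  have hi : 0 ≤ (z ^ 2)⁻¹ := by positivity
  have pX : ((z ^ 2)⁻¹ • (cMᵀ * W₀ * cM)).PosSemidef := by
    have := P075.psd_conj pW₀ cMᵀ
    rw [transpose_transpose] at this
    exact this.smul hi
  have pD : ((z ^ 2)⁻¹ • (cMᵀ * (W₁ - W₀) * cM)).PosSemidef := by
    have := P075.psd_conj pE cMᵀ
    rw [transpose_transpose] at this
    exact this.smul hi
  have h5 := P075.res_anti pX pD
  have e5 : (z ^ 2)⁻¹ • (cMᵀ * W₀ * cM) + (z ^ 2)⁻¹ • (cMᵀ * (W₁ - W₀) * cM) =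
      (z ^ 2)⁻¹ • (cMᵀ * W₁ * cM) := by
    rw [← smul_add]
    congr 1
    rw [Matrix.mul_sub, Matrix.sub_mul]
    abel
  rw [e5] at h5
  have h6 := P075.psd_conj (P075.psd_conj h5 cM) Θ
  have h7 : (pw (z ^ 2)⁻¹ Θ W₀ cM - pw (z ^ 2)⁻¹ Θ W₁ cM).PosSemidef := by
    rw [pw_eq, pw_eq, PW, PW]
    rw [hΘs] at h6
    have e7 : Θ * (cM * (P075.res ((z ^ 2)⁻¹ • (cMᵀ * W₀ * cM)) -
        P075.res ((z ^ 2)⁻¹ • (cMᵀ * W₁ * cM))) * cMᵀ) * Θ =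
        Θ * (cM * P075.res ((z ^ 2)⁻¹ • (cMᵀ * W₀ * cM)) * cMᵀ) * Θ -
        Θ * (cM * P075.res ((z ^ 2)⁻¹ • (cMᵀ * W₁ * cM)) * cMᵀ) * Θ := by
      simp only [Matrix.mul_sub, Matrix.sub_mul]
    rwa [e7] at h6
  have h8 := P075.psd_conj_symm h7 (sk_tr (κ := κ) k)
  rw [Matrix.mul_sub, Matrix.sub_mul] at h8
  have p2 : (phs (y ^ 2) ((2 : ℝ) • CP b k k m.2.1 m.2.2)).PosSemidef :=
    H457.phs_pos hy2 ((CP_psd b k k m.2.1 m.2.2).smul (by norm_num))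
  have h9 := P075.trace_mul_nonneg p2 h8
  rw [Matrix.mul_sub, trace_sub] at h9
  exact sub_nonneg.1 h9

end node

end

end Vale.Agent.P141.H228.Gauge
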