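import Vale.Agent.P141.H831.LbcS
import Vale.Agent.P141.H150.WISum
import Vale.Agent.P141.H228.GaugeI

/-!
# P141, line (A), (TI), leaf `LBC1g`: the pair `(Bg, Cg)` of a family, crude

* `ww_sum` : the row cost `H831.Lbc.WW` summed over `x₀`;
* `PBCg_le` : the crude bound from masses and row numbers.
-/

namespace Vale.Agent.P141.H228.LbcF

open Finset Matrix
open Vale.Agent.P141.PL (Pt iv hs ix cx mem_iv ix_ix)
open Vale.Agent.P141.PL.H588 (Pl)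
open Vale.Agent.P141.H958 (lbs)
open Vale.Agent.P141.H338 (cu sum_cu_cu)
open Vale.Agent.P141.H420 (Tr)
open Vale.Agent.P141.H652 (Th mass_x0)
open Vale.Agent.P141.H677 (KT GT sN rt tr_T)
open Vale.Agent.P141.H677.Sk (FamA FamV)
open Vale.Agent.P141.H609.RPW (um eb ec rt_eb rt_ec vd_um)
open Vale.Agent.P141.H831.Lbc (bS_sq C0_sq VT WW lbc_x0)
open Vale.Agent.P141.H228.Gauge (PBCg Bg Cg)

noncomputable section

set_option linter.unusedSectionVars false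

open scoped Classical

section sum

variable {κ : Type*} [Fintype κ] [DecidableEq κ] {L : ℕ} {e : κ ⊕ κ → ℤ}

/-- **The row cost summed over `x₀`.** -/
theorem ww_sum (he : Function.Injective e) (hm : ∀ i, e i ∈ lbs L) {N : ℕ} {R : Pt} {t0 S : ℤ}
    {l ε K lam : ℝ} (hε : 0 < ε) (hK : 0 ≤ K) {G Kq : ℤ → ℕ → ℤ → Matrix κ κ ℝ}
    (hT : ∀ x, Tr l N (G x) (Kq x)) (hl : 0 ≤ lam) (c₀ : ℤ) {c : ℤ → ℕ → ℤ}
    (hcx : ∀ k < N, ∀ i j, ix (k + 1) i = ix (k + 1) j → c i (k + 1) = c j (k + 1))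
    {b C : ℤ → ℕ → ℤ → ℤ → κ → ℝ}
    (hB : ∀ k < N, ∀ q, ∀ n ∈ iv (N - (k + 1)) R.2.1, ∀ x ∈ iv N R.2.2,
      ∑ x0 ∈ iv (k + 1) q, ∑ y ∈ iv (k + 1) n, b x0 (k + 1) x y ⬝ᵥ b x0 (k + 1) x y ≤
        lam * 4 ^ (k + 1))
    (hC : ∀ k < N, ∀ q, ∀ n ∈ iv (N - (k + 1)) R.1, ∀ x ∈ iv N R.2.2,
      ∑ x0 ∈ iv (k + 1) q, ∑ z ∈ iv (k + 1) n, C x0 (k + 1) z x ⬝ᵥ C x0 (k + 1) z x ≤
        lam * 4 ^ (k + 1)) :
    ∑ x0 ∈ iv N t0, WW L e ε K (VT l N S Kq c₀ x0) N R (c x0) (b x0) (C x0) ≤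
      2 * lam * (4 ^ N * (81940 * (l⁻¹ * ∑ x1 ∈ iv N R.2.2, (G x1 N S).trace))) := by
  have h2 : ∀ k : ℕ, ((2 : ℝ) ^ (k + 1))⁻¹ * (lam * 4 ^ (k + 1)) = lam * 2 ^ (k + 1) := by
    intro k
    have h4 : (4 : ℝ) ^ (k + 1) = 2 ^ (k + 1) * 2 ^ (k + 1) := by rw [← mul_pow]; norm_num
    rw [h4]
    field_simp
  unfold H831.Lbc.WW
  refine H150.WI.wI_sum' (L := L) (N := N) (R := R.2.1) (S := R.2.2) (T := R.1) (M := S)
    (G := G) (Kq := Kq) (fun x1 _ => hT x1) (by positivity : (0 : ℝ) ≤ 2 * lam) c₀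
    (U := fun x0 => um L e ε K (VT l N S Kq c₀ x0)) ?_ hcx
    (F := fun x0 => eb L e (H831.Lbc.bS (b x0))) (H := fun x0 => ec L e (C x0)) ?_ ?_
  · intro x0 _ k x j
    exact (vd_um he hm hε hK (VT l N S Kq c₀ x0) k x j).trans
      (H150.WI.vk_half (fun k x j => Th l N S (Kq x) c₀ x0 x k j) k x j)
  · intro k hk q _ n hn x hx
    have e1 : ∀ x0, H433.rt L (eb L e (H831.Lbc.bS (b x0)) (L + (k + 1))) (k + 1) n x =
        ((2 : ℝ) ^ (k + 1))⁻¹ * (2 * ∑ y ∈ iv (k + 1) n,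
          b x0 (k + 1) x y ⬝ᵥ b x0 (k + 1) x y) := by
      intro x0
      rw [rt_eb, mul_sum (a := (2 : ℝ))]
      congr 1
      refine sum_congr rfl fun y _ => ?_
      rw [← bS_sq (b x0) (k + 1) x y]
      have h := sum_cu_cu he hm (H831.Lbc.bS (b x0) (k + 1) x y) (H831.Lbc.bS (b x0) (k + 1) x y)
      rw [dotProduct, ← h]
      exact sum_congr rfl fun l _ => sq _
    simp only [e1]
    rw [← mul_sum, ← mul_sum]
    have h := hB k hk q n hn x hx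
    have h3 := h2 k
    have h5 : (0 : ℝ) < ((2 : ℝ) ^ (k + 1))⁻¹ := by positivity
    have h6 := mul_le_mul_of_nonneg_left h h5.le
    rw [h3] at h6
    linarith
  · intro k hk q _ n hn x hx
    have e1 : ∀ x0, H433.rt L (ec L e (C x0) (L + (k + 1))) (k + 1) n x =
        ((2 : ℝ) ^ (k + 1))⁻¹ * (∑ z ∈ iv (k + 1) n,
          C x0 (k + 1) z x ⬝ᵥ C x0 (k + 1) z x) := by
      intro x0
      rw [rt_ec]
      congr 1
      refine sum_congr rfl fun z _ => ?_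
      rw [← C0_sq (C x0 (k + 1) z x)]
      have h := sum_cu_cu he hm (Sum.elim (C x0 (k + 1) z x) (0 : κ → ℝ))
        (Sum.elim (C x0 (k + 1) z x) (0 : κ → ℝ))
      rw [dotProduct, ← h]
      exact sum_congr rfl fun l _ => sq _
    simp only [e1]
    rw [← mul_sum]
    have h := hC k hk q n hn x hx
    have h3 := h2 k
    have h5 : (0 : ℝ) < ((2 : ℝ) ^ (k + 1))⁻¹ := by positivity
    have h6 := mul_le_mul_of_nonneg_left h h5.le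
    rw [h3] at h6
    have h7 : (0 : ℝ) ≤ lam * 2 ^ (k + 1) := by positivity
    linarith

end sum

section fam

variable {ι : Type} [Fintype ι] [DecidableEq ι]

/-- **The crude bound of the pair `(Bg, Cg)`.** -/
theorem PBCg_le {Al : ℕ → Pt → Prop} {o : ℤ} (ho : o = 1 ∨ o = -1) {K : ℕ} {x : Pt}
    {sg : ℕ → Pt → ℝ} {be l : ℝ} (hbe : 0 < be) (hbe1 : be ≤ 1) (hl : 0 < l)
    {u : ℤ → ℤ → ι → ℝ} {A : FamA}
    {b C : FamV ι} {QB QC : ℕ → ℤ → ℤ → ℤ → Prop} {mu cP lam : ℝ} (hmu : 0 ≤ mu)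
    (hlam : 0 ≤ lam)
    (zB : ∀ x0, b x0 0 = 0) (zC : ∀ x0, C x0 0 = 0)
    (agB : ∀ k < K, ∀ x0 i m, ¬ QB k (ix k x0) i m → ∀ w ∈ iv k i, ∀ y ∈ iv k m,
      b x0 (k + 1) w y = b x0 k w y)
    (agC : ∀ k < K, ∀ x0 i m, ¬ QC k (ix k x0) i m → ∀ z ∈ iv k i, ∀ w ∈ iv k m,
      C x0 (k + 1) z w = C x0 k z w)
    (massB : ∀ k < K, ∀ i, ∀ w' ∈ iv (K - k) (ix K x.1), ∀ y' ∈ iv (K - k) (ix K x.2.1),
      ∑ x0 ∈ iv k i, ∑ w ∈ iv k w', ∑ y ∈ iv k y', b x0 (k + 1) w y ⬝ᵥ b x0 (k + 1) w y ≤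
        mu * 8 ^ k)
    (massC : ∀ k < K, ∀ i, ∀ z' ∈ iv (K - k) (ix K x.2.2), ∀ w' ∈ iv (K - k) (ix K x.1),
      ∑ x0 ∈ iv k i, ∑ z ∈ iv k z', ∑ w ∈ iv k w', C x0 (k + 1) z w ⬝ᵥ C x0 (k + 1) z w ≤
        mu * 8 ^ k)
    (packB : ∀ x0 : ℤ, ∑ k ∈ range K,
      H588G.cnt K (ix K x.1) (ix K x.2.1) k (QB k (ix k x0)) ≤ cP * 4 ^ K)
    (packC : ∀ x0 : ℤ, ∑ k ∈ range K,
      H588G.cnt K (ix K x.2.2) (ix K x.1) k (QC k (ix k x0)) ≤ cP * 4 ^ K)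
    (rowB : ∀ k < K, ∀ q, ∀ n ∈ iv (K - (k + 1)) (ix K x.2.1), ∀ w ∈ iv K (ix K x.1),
      ∑ x0 ∈ iv (k + 1) q, ∑ y ∈ iv (k + 1) n, b x0 (k + 1) w y ⬝ᵥ b x0 (k + 1) w y ≤
        lam * 4 ^ (k + 1))
    (rowC : ∀ k < K, ∀ q, ∀ n ∈ iv (K - (k + 1)) (ix K x.2.2), ∀ w ∈ iv K (ix K x.1),
      ∑ x0 ∈ iv (k + 1) q, ∑ z ∈ iv (k + 1) n, C x0 (k + 1) z w ⬝ᵥ C x0 (k + 1) z w ≤
        lam * 4 ^ (k + 1))
    {h : ℝ} (hh : 0 < h) :
    PBCg be h h ι Al o K (cx K x) sg l u A b C ≤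
      18 * 10 ^ 4 * be⁻¹ * (3 * (mu * (cP * 8 ^ K)) +
        2 * lam * (4 ^ K * (81940 * (l⁻¹ * ∑ x1 ∈ iv K (ix K x.1),
          (GT u x1 K (ix K x.2.1)).trace)))) * h ^ 2 := by
  have hT : ∀ x1, Tr l K (fun k m => GT u x1 k m) (KT l u x1) := fun x1 => tr_T hl K u x1
  obtain ⟨L, e, he, hm⟩ := H652.exists_enc (ι ⊕ ι)
  set DB : ℤ → ℝ := fun x0 => ∑ k ∈ range K, ∑ m ∈ iv (K - k) (ix K x.1),
    ∑ n ∈ iv (K - k) (ix K x.2.1), (if QB k (ix k x0) m n then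
      ∑ w ∈ iv k m, ∑ y ∈ iv k n, b x0 (k + 1) w y ⬝ᵥ b x0 (k + 1) w y else 0) with hDBd
  set DC : ℤ → ℝ := fun x0 => ∑ k ∈ range K, ∑ m ∈ iv (K - k) (ix K x.1),
    ∑ n ∈ iv (K - k) (ix K x.2.2), (if QC k (ix k x0) n m then
      ∑ w ∈ iv k m, ∑ z ∈ iv k n, C x0 (k + 1) z w ⬝ᵥ C x0 (k + 1) z w else 0) with hDCd
  have hDB : ∀ t, ∑ x0 ∈ iv K t, DB x0 ≤ mu * (cP * 8 ^ K) := fun t => by
    have h := mass_x0 (K := K) (R := ix K x.1) (S := ix K x.2.1) (t := t) (q := QB)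
      (f := fun x0 k m n => ∑ w ∈ iv k m, ∑ y ∈ iv k n, b x0 (k + 1) w y ⬝ᵥ b x0 (k + 1) w y)
      (cP := cP) hmu (fun k hk i n hn m hm => massB k hk i n hn m hm) fun x0 _ => packB x0
    refine le_trans (le_of_eq ?_) h
    refine sum_congr rfl fun x0 _ => sum_congr rfl fun k _ => ?_
    rw [sum_comm]
  have hDC : ∀ t, ∑ x0 ∈ iv K t, DC x0 ≤ mu * (cP * 8 ^ K) := fun t => by
    have h := mass_x0 (K := K) (R := ix K x.2.2) (S := ix K x.1) (t := t) (q := QC)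
      (f := fun x0 k n m => ∑ w ∈ iv k m, ∑ z ∈ iv k n, C x0 (k + 1) z w ⬝ᵥ C x0 (k + 1) z w)
      (cP := cP) hmu
      (fun k hk i n hn m hm => by
        refine le_trans (le_of_eq ?_) (massC k hk i n hn m hm)
        exact sum_congr rfl fun x0 _ => sum_comm) fun x0 _ => packC x0
    exact h
  have h1 : ∀ x0, ∑ k ∈ Icc 1 K, ∑ m ∈ sN Al o K (cx K x) x0 k,
      H408.rBC (Bg (b x0 k)) (Cg be l K (cx K x).2.1 (KT l u) (o - 2) x0 (C x0 k) k) k m h h ≤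
      6 * 10 ^ 4 * be⁻¹ * (2 * DB x0 + DC x0 +
        WW L e (√be) (√2) (VT l K (cx K x).2.1 (KT l u) (o - 2) x0) K (H677.rv (cx K x))
          (H677.cP o x0) (b x0) (C x0)) * h ^ 2 := by
    intro x0
    exact lbc_x0 (R := H677.rv (cx K x)) (c := H677.cP o x0) he hm (H677.cP_pl ho x0)
      (s := fun k => sN Al o K (cx K x) x0 k)
      (fun k _ => H677.sN_sub Al o K (cx K x) x0 k) hbe hbe1 (cx K x).2.1 hT (o - 2) x0
      (b := b x0) (C := C x0) (QB := fun k n m => QB k (ix k x0) m n)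
      (QC := fun k n m => QC k (ix k x0) n m) (zB x0) (zC x0)
      (fun k hk n _ m _ hq y hy w hw => agB k hk x0 m n hq w hw y hy)
      (fun k hk n _ m _ hq z hz w hw => agC k hk x0 n m hq z hz w hw)
      le_rfl le_rfl hh
  have hW := fun t => ww_sum (L := L) (e := e) he hm (N := K) (R := H677.rv (cx K x)) (t0 := t)
    (S := (cx K x).2.1) (l := l) (ε := √be) (K := √2) (lam := lam) (Real.sqrt_pos.2 hbe)
    (Real.sqrt_nonneg 2) (G := fun x1 k m => GT u x1 k m) (Kq := KT l u) hT hlam (o - 2)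
    (c := fun x0 => H677.cP o x0) (fun k _ i j hij => H677.cP_ix o hij) (b := b) (C := C)
    rowB rowC
  set Y : ℝ := 2 * lam * (4 ^ K * (81940 * (l⁻¹ * ∑ x1 ∈ iv K (ix K x.1),
    (GT u x1 K (ix K x.2.1)).trace))) with hY
  have h2 : PBCg be h h ι Al o K (cx K x) sg l u A b C ≤
      ∑ t ∈ rt (cx K x), 6 * 10 ^ 4 * be⁻¹ * (3 * (mu * (cP * 8 ^ K)) + Y) * h ^ 2 := by
    unfold H228.Gauge.PBCg H408.SN
    refine sum_le_sum fun t _ => ?_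
    refine (sum_le_sum fun x0 _ => h1 x0).trans ?_
    rw [← sum_mul, ← mul_sum, sum_add_distrib, sum_add_distrib, ← mul_sum]
    have a1 := hDB t
    have a2 := hDC t
    have a3 : ∑ x0 ∈ iv K t, WW L e (√be) (√2) (VT l K (cx K x).2.1 (KT l u) (o - 2) x0) K
        (H677.rv (cx K x)) (H677.cP o x0) (b x0) (C x0) ≤ Y := hW t
    refine mul_le_mul_of_nonneg_right (mul_le_mul_of_nonneg_left ?_ (by positivity))
      (sq_nonneg h)
    linarith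
  refine h2.trans ?_
  rw [sum_const, nsmul_eq_mul]
  have h3 : (rt (cx K x)).card = 3 := by
    unfold H677.rt
    rw [Int.card_Icc]
    omega
  rw [h3]
  refine le_of_eq ?_
  push_cast
  ring

end fam

end

end Vale.Agent.P141.H228.LbcF
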