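import Vale.Agent.P141.PL.H855.StepDefs
import Vale.Agent.P141.H297.Win7

/-!
# P141, line W, PROC (S7): the births inside a region pay, arbitrary companions

`nv : N4 g α`, a region `ud` of used cells below the cell `(K, x)`, one path (`V`, `H`) with the
system `S`.  If every atom of `S` which is born on a cell of the region pays, on the part of the
region below this cell, at most `p` times its local weight, then all the births inside the region
pay at most `p` times the total drop.  The other three slots `A` are arbitrary families.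
-/

namespace Vale.Agent.P141.H228

open Finset Function
open Vale.Agent.P141.H315 Vale.Agent.P141.PL.H318 Vale.Agent.P141.H347
open Vale.Agent.P141.H297 (Paths Sub du tp birth_sum T_eq_sub_birth den_le_dr stay_of_lt)
open Vale.Agent.P141.PL.H855
open Vale.Agent.P141.H8

noncomputable section

open scoped Classical

variable {X ι α : Type*} {g : Grid X}

/-- the part of a region below a cell -/
def belw (g : Grid X) (ud : ℕ → X → Prop) (i : ℕ) (p : X) : ℕ → X → Prop :=
  fun k y => ud k y ∧ k ≤ i ∧ y ∈ g.cube i p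

theorem rgn_belw {gd ud : ℕ → X → Prop} {K : ℕ} {x : X} (hR : Rgn g gd K x ud) {i : ℕ}
    (hi : i ≤ K) (p : X) : Rgn g gd i p (belw g ud i p) := by
  refine ⟨fun k y z hz => ?_, fun k hk y hy => ?_, fun k y hy => ⟨hy.2.1, hy.2.2⟩,
    fun k y hy => hR.sub k y hy.1⟩
  · constructor
    · rintro ⟨a1, a2, a3⟩
      have h1 : y ∈ g.cube k z := by rw [g.eq_of_mem k y z hz]; exact g.mem k y
      exact ⟨(hR.const k y z hz).1 a1, a2, g.cube_subset a2 a3 h1⟩
    · rintro ⟨a1, a2, a3⟩
      exact ⟨(hR.const k y z hz).2 a1, a2, g.cube_subset a2 a3 hz⟩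
  · exact ⟨hR.up k (by omega) y hy.1, hk, hy.2.2⟩

theorem belw_mono {ud : ℕ → X → Prop} {i : ℕ} {p : X} {k : ℕ} {y : X} (h : belw g ud i p k y) :
    ud k y := h.1

/-- node values of the births of one scale, atom by atom -/
theorem abs_v_birth_le (nv : N4 g α) (S : CSys g ι) (N : α) (B : Fin 4 → X → ℝ) (m : Fin 4)
    (G : X → ℝ) {i : ℕ} (hi : nv.sc N ≤ i) {p : X} (hp : nv.pt N ∈ g.cube i p) :
    |nv.v N (update B m (birth S i G))| ≤ ∑ a ∈ (bm S i G (g.cube i p)).support,
      |(bm S i G (g.cube i p)) a| * |nv.v N (update B m (S.a i a))| := by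
  have e1 : nv.v N (update B m (birth S i G)) =
      nv.v N (update B m (∑ a ∈ (bm S i G (g.cube i p)).support,
        (bm S i G (g.cube i p)) a • S.a i a)) := by
    refine nv.congr N _ _ fun l y hy => ?_
    by_cases hl : l = m
    · subst hl
      rw [update_self, update_self, birth_sum S i G (x := p), Finsupp.sum, Finset.sum_apply]
      · exact sum_congr rfl fun i _ => rfl
      · exact g.cube_subset hi hp hy
    · rw [update_of_ne hl, update_of_ne hl]
  rw [e1, v_sum]
  exact (abs_sum_le_sum_abs _ _).trans (le_of_eq (sum_congr rfl fun i _ => abs_mul _ _))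

/-- averaging a quantity of a node over the cell of a coarser scale -/
theorem avg_node {K : ℕ} {x : X} {i : ℕ} (hi : i ≤ K) {q : X} (hq : q ∈ g.cube K x) (Q : ℝ) :
    Q = ∑ p ∈ g.cube K x, if q ∈ g.cube i p then Q / cd g i p else 0 := by
  rw [← sum_filter]
  have e1 : (g.cube K x).filter (fun p => q ∈ g.cube i p) = g.cube i q := by
    ext p
    rw [mem_filter]
    constructor
    · rintro ⟨-, hp⟩
      rw [g.eq_of_mem i p _ hp]
      exact g.mem i p
    · intro hp
      refine ⟨g.cube_subset hi hq hp, ?_⟩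
      rw [g.eq_of_mem i _ _ hp]
      exact g.mem i q
  rw [e1]
  have e2 : ∀ p ∈ g.cube i q, Q / cd g i p = Q / cd g i q := by
    intro p hp
    unfold cd
    rw [g.eq_of_mem i _ _ hp]
  rw [sum_congr rfl e2, sum_const, nsmul_eq_mul]
  have hcd := Vale.Agent.P141.H297.cd_pos g i q
  unfold cd at hcd ⊢
  field_simp

/-- the sum over the nodes of a region of the node values of all the births inside it -/
def BS (nv : N4 g α) (ud : ℕ → X → Prop) (S : CSys g ι) (H : ℕ → X → ℝ) (K : ℕ)
    (A : Fin 4 → ℕ → X → ℝ) (m : Fin 4) : ℝ :=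
  ∑ N ∈ nv.nd, if ud (nv.sc N) (nv.pt N) then ∑ i ∈ Ico (nv.sc N) K,
    |nv.v N (update (fun j => A j (nv.sc N)) m (birth S i (H i)))| else 0

/-- **The births inside a region pay**, arbitrary companions, one system. -/
theorem pay_births4 {nv : N4 g α} {gd ud : ℕ → X → Prop} {K : ℕ} {x : X}
    (hR : Rgn g gd K x ud) {S : CSys g ι} (w : LW S) (H : ℕ → X → ℝ)
    (A : Fin 4 → ℕ → X → ℝ) (m : Fin 4) {p : ℝ} (hp : 0 ≤ p)
    (H1 : ∀ i < K, ∀ y, ud i y → ∀ a, TR nv (belw g ud i y) (update A m (st (S.a i a))) ≤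
      p * w.ω i i y a * cd g i y) {D : ℝ}
    (hD : ∑ i ∈ range K, ∑ z ∈ g.cube K x, (if ud i z then dr S i (H i) z else 0) ≤
      D * cd g K x) :
    BS nv ud S H K A m ≤ p * (D * cd g K x) := by
  -- the bound at one node
  set Q : ℕ → α → X → ℝ := fun i N y => ∑ a ∈ (bm S i (H i) (g.cube i y)).support,
    |(bm S i (H i) (g.cube i y)) a| *
      |nv.v N (update (fun j => A j (nv.sc N)) m (S.a i a))| with hQ
  have hQ0 : ∀ i N y, 0 ≤ Q i N y := fun i N y => sum_nonneg fun a _ => by positivity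
  have h1 : BS nv ud S H K A m ≤ ∑ N ∈ nv.nd, ∑ i ∈ range K, ∑ y ∈ g.cube K x,
      if ud (nv.sc N) (nv.pt N) ∧ nv.sc N ≤ i ∧ nv.pt N ∈ g.cube i y then
        Q i N y / cd g i y else 0 := by
    unfold BS
    refine sum_le_sum fun N _ => ?_
    by_cases hu : ud (nv.sc N) (nv.pt N)
    · rw [if_pos hu]
      obtain ⟨hb1, hb2⟩ := hR.bel _ _ hu
      refine le_trans (sum_le_sum fun i hi => ?_) (sum_le_sum_of_subset_of_nonneg
        (s := Ico (nv.sc N) K) (fun i hi => ?_) fun i _ _ => sum_nonneg fun y _ => ?_)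
      · rw [mem_Ico] at hi
        have h2 := abs_v_birth_le nv S N (fun j => A j (nv.sc N)) m (H i) hi.1
          (p := nv.pt N) (g.mem i _)
        refine h2.trans (le_of_eq ?_)
        show Q i N (nv.pt N) = _
        rw [avg_node hi.2.le hb2 (Q i N (nv.pt N))]
        refine sum_congr rfl fun y _ => ?_
        by_cases h3 : nv.pt N ∈ g.cube i y
        · have h4 : g.cube i y = g.cube i (nv.pt N) := (g.eq_of_mem i y _ h3).symm
          have h5 : Q i N (nv.pt N) = Q i N y := by rw [hQ]; simp only; rw [h4]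
          rw [if_pos h3, if_pos ⟨hu, hi.1, h3⟩, h5]
        · rw [if_neg h3, if_neg fun h => h3 h.2.2]
      · rw [mem_Ico] at hi
        exact mem_range.2 hi.2
      · split_ifs
        · exact div_nonneg (hQ0 _ _ _) (Vale.Agent.P141.H297.cd_pos g i y).le
        · exact le_rfl
    · rw [if_neg hu]
      refine sum_nonneg fun i _ => sum_nonneg fun y _ => ?_
      rw [if_neg fun h => hu h.1]
  refine h1.trans ?_
  rw [sum_comm]
  have h2 : ∀ i ∈ range K, ∑ N ∈ nv.nd, ∑ y ∈ g.cube K x,
      (if ud (nv.sc N) (nv.pt N) ∧ nv.sc N ≤ i ∧ nv.pt N ∈ g.cube i y then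
        Q i N y / cd g i y else 0) ≤
      p * ∑ z ∈ g.cube K x, (if ud i z then dr S i (H i) z else 0) := by
    intro i hi
    rw [mem_range] at hi
    rw [sum_comm, mul_sum]
    refine sum_le_sum fun y _ => ?_
    have hcd := Vale.Agent.P141.H297.cd_pos g i y
    by_cases hu : ud i y
    · rw [if_pos hu]
      have e1 : ∑ N ∈ nv.nd, (if ud (nv.sc N) (nv.pt N) ∧ nv.sc N ≤ i ∧ nv.pt N ∈ g.cube i y then
          Q i N y / cd g i y else 0) =
          (∑ a ∈ (bm S i (H i) (g.cube i y)).support, |(bm S i (H i) (g.cube i y)) a| *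
            TR nv (belw g ud i y) (update A m (st (S.a i a)))) / cd g i y := by
        rw [eq_div_iff hcd.ne', sum_mul]
        unfold TR
        simp only [mul_sum]
        rw [sum_comm]
        refine sum_congr rfl fun N _ => ?_
        by_cases h3 : ud (nv.sc N) (nv.pt N) ∧ nv.sc N ≤ i ∧ nv.pt N ∈ g.cube i y
        · rw [if_pos h3, div_mul_cancel₀ _ hcd.ne', hQ]
          simp only
          refine sum_congr rfl fun a _ => ?_
          rw [if_pos (show belw g ud i y (nv.sc N) (nv.pt N) from h3), upd_sc]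
          rfl
        · rw [if_neg h3, zero_mul]
          refine (sum_eq_zero fun a _ => ?_).symm
          rw [if_neg (show ¬ belw g ud i y (nv.sc N) (nv.pt N) from h3), mul_zero]
      rw [e1, div_le_iff₀ hcd]
      have e2 : ∑ a ∈ (bm S i (H i) (g.cube i y)).support, |(bm S i (H i) (g.cube i y)) a| *
          TR nv (belw g ud i y) (update A m (st (S.a i a))) ≤
          p * lden w i i (H i) y * cd g i y := by
        unfold lden Finsupp.sum
        rw [mul_sum, sum_mul]
        refine sum_le_sum fun a _ => ?_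
        refine (mul_le_mul_of_nonneg_left (H1 i hi y hu a) (abs_nonneg _)).trans (le_of_eq ?_)
        ring
      refine e2.trans (mul_le_mul_of_nonneg_right (mul_le_mul_of_nonneg_left ?_ hp) hcd.le)
      exact (lden_self_le w i (H i) y).trans (den_le_dr S i (H i) y)
    · rw [if_neg hu, mul_zero]
      refine le_of_eq (sum_eq_zero fun N _ => if_neg ?_)
      rintro ⟨a1, a2, a3⟩
      have a4 : ud i (nv.pt N) := hR.up' a2 hi.le a1
      exact hu ((hR.const i y _ a3).1 a4)
  refine (sum_le_sum h2).trans ?_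
  rw [← mul_sum]
  exact mul_le_mul_of_nonneg_left hD hp

/-- a slot which is the sum of the births above the node inside a region -/
theorem TR_le_BS {nv : N4 g α} {gd ud : ℕ → X → Prop} {K : ℕ} {x : X} (hR : Rgn g gd K x ud)
    {S : CSys g ι} (H : ℕ → X → ℝ) (A : Fin 4 → ℕ → X → ℝ) (m : Fin 4) {B : ℕ → X → ℝ}
    (hB : ∀ k y, ud k y → B k y = ∑ i ∈ Ico k K, birth S i (H i) y) :
    TR nv ud (update A m B) ≤ BS nv ud S H K A m := by
  unfold TR BS
  refine sum_le_sum fun N _ => ?_
  split_ifs with hu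
  · have e1 : nv.v N (fun j => update A m B j (nv.sc N)) =
        nv.v N (update (fun j => A j (nv.sc N)) m
          (∑ i ∈ Ico (nv.sc N) K, (1 : ℝ) • birth S i (H i))) := by
      rw [upd_sc]
      refine nv.congr N _ _ fun l y hy => ?_
      by_cases hl : l = m
      · subst hl
        rw [update_self, update_self, hB _ _ ((hR.const _ _ _ hy).2 hu), Finset.sum_apply]
        exact sum_congr rfl fun i _ => by rw [one_smul]
      · rw [update_of_ne hl, update_of_ne hl]
    rw [e1, v_sum]
    refine (abs_sum_le_sum_abs _ _).trans (le_of_eq (sum_congr rfl fun i _ => ?_))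
    rw [one_mul]
  · exact le_rfl

section pth

variable {S : CSys g ι} {w : LW S} {L : ℕ} {e : ℝ} {F : X → ℝ} {gd : ℕ → X → Prop}
  {V H : ℕ → X → ℝ} {rs : ℕ → X → Prop} {lm : ℕ → X → ℝ}

/-- inside a region without restarts the path is its value at the top minus the births -/
theorem V_region (hP : Pth w L e F gd V H rs lm) {ud : ℕ → X → Prop} {K : ℕ} (hK : K ≤ L) {x : X}
    (hR : Rgn g gd K x ud) (hn : ∀ k < K, ∀ y, ud k y → ¬ rs k y) {k : ℕ} {y : X}
    (hy : ud k y) : V K y - V k y = ∑ i ∈ Ico k K, birth S i (H i) y := by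
  have hk : k ≤ K := (hR.bel k y hy).1
  have key : ∀ i, k ≤ i → i ≤ K → V i y - V k y = ∑ i ∈ Ico k i, birth S i (H i) y := by
    intro i hki
    induction i, hki using Nat.le_induction with
    | base => intro _; simp
    | succ i hki ih =>
      intro hi
      have h1 : ud i y := hR.up' hki (by omega) hy
      have h2 := hP.keep i (by omega) y (hR.sub i y h1) (hn i (by omega) y h1)
      have h3 := hP.step i (by omega) y (hR.sub i y h1)
      rw [T_eq_sub_birth, h2] at h3
      rw [sum_Ico_succ_top hki, ← ih (by omega)]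
      linarith
  exact key K hk le_rfl

/-- **The births inside a region pay.**  Region `ud` with the top cell `(K, x)`, without restarts,
total drop `D`; arbitrary companions. -/
theorem TR_births {nv : N4 g α} (hP : Pth w L e F gd V H rs lm) {ud : ℕ → X → Prop} {K : ℕ}
    (hK : K ≤ L) {x : X} (hR : Rgn g gd K x ud) (hn : ∀ k < K, ∀ y, ud k y → ¬ rs k y)
    (A : Fin 4 → ℕ → X → ℝ) (m : Fin 4) {p : ℝ} (hp : 0 ≤ p)
    (H1 : ∀ i < K, ∀ y, ud i y → ∀ a, TR nv (belw g ud i y) (update A m (st (S.a i a))) ≤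
      p * w.ω i i y a * cd g i y) {D : ℝ}
    (hD : ∑ i ∈ range K, ∑ z ∈ g.cube K x, (if ud i z then dr S i (H i) z else 0) ≤
      D * cd g K x) :
    TR nv ud (update A m (fun k y => V K y - V k y)) ≤ p * (D * cd g K x) :=
  (TR_le_BS hR H A m fun _ _ hy => V_region hP hK hR hn hy).trans
    (pay_births4 hR w H A m hp H1 hD)

/-- the same for `V k - V K` -/
theorem TR_births' {nv : N4 g α} (hP : Pth w L e F gd V H rs lm) {ud : ℕ → X → Prop} {K : ℕ}
    (hK : K ≤ L) {x : X} (hR : Rgn g gd K x ud) (hn : ∀ k < K, ∀ y, ud k y → ¬ rs k y)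
    (A : Fin 4 → ℕ → X → ℝ) (m : Fin 4) {p : ℝ} (hp : 0 ≤ p)
    (H1 : ∀ i < K, ∀ y, ud i y → ∀ a, TR nv (belw g ud i y) (update A m (st (S.a i a))) ≤
      p * w.ω i i y a * cd g i y) {D : ℝ}
    (hD : ∑ i ∈ range K, ∑ z ∈ g.cube K x, (if ud i z then dr S i (H i) z else 0) ≤
      D * cd g K x) :
    TR nv ud (update A m (fun k y => V k y - V K y)) ≤ p * (D * cd g K x) := by
  refine le_trans (le_of_eq ?_) (TR_births hP hK hR hn A m hp H1 hD)
  rw [← TR_neg]
  congr 2
  funext k y
  simp

end pth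

section fam

variable {J : Type*} [Fintype J] {S : J → CSys g ι} {w : ∀ j, LW (S j)} {L : ℕ} {e : ℝ}
  {F : J → X → ℝ} {gd : ℕ → X → Prop} {V H : J → ℕ → X → ℝ} {rs : J → ℕ → X → Prop}
  {lm : J → ℕ → X → ℝ} {e0 C2 : ℝ}

/-- below a window top there are no restarts -/
theorem no_rs_tp {k Λ : ℕ} (hΛ : Λ ≤ L) (hk : k < Λ) {y : X}
    (h : tp w L gd V H rs e0 C2 k y = Λ) (j : J) : ¬ rs j k y := by
  obtain ⟨_, _, h6⟩ := stay_of_lt w L gd V H rs e0 C2 (k := k) (x := y) (by omega)
    (by rw [h]; exact hk)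
  exact (h6.1 y (g.mem _ _)).2.1 j

/-- **The births inside a region of one window pay**, arbitrary companions.  `ud` is any region of
used cells with the top cell `(K, x)` on which the label is `Λ ≥ K`; `D` is its drop. -/
theorem TR_births_win {nv : N4 g α} (hP : Paths w L e F gd V H rs lm) {Λ K : ℕ} (hΛ : Λ ≤ L)
    (hK : K ≤ Λ) {x : X} {ud : ℕ → X → Prop} (hR : Rgn g gd K x ud) (hx : ud K x)
    (ht : ∀ k y, ud k y → tp w L gd V H rs e0 C2 k y = Λ) {R D : ℝ}
    (hU : Sub S L gd H rs K ud R D) (j : J) (A : Fin 4 → ℕ → X → ℝ) (m : Fin 4) {p : ℝ}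
    (hp : 0 ≤ p) (H1 : ∀ i < K, ∀ y, ud i y → ∀ a,
      TR nv (belw g ud i y) (update A m (st ((S j).a i a))) ≤
        p * (w j).ω i i y a * cd g i y) :
    TR nv ud (update A m (fun k y => V j K y - V j k y)) ≤ p * (D * cd g K x) :=
  TR_births (hP.path j) (hK.trans hΛ) hR
    (fun k hk y hy => no_rs_tp hΛ (by omega) (ht k y hy) j) A m hp H1
    (hU.drop j K le_rfl x hx)


/-- **The births of a window above the top `(K, x)` of a subregion pay** (local mass at most the
threshold). -/
theorem TR_above_win {nv : N4 g α} {Λ K : ℕ} (he0 : 0 ≤ e0) (hΛ : Λ ≤ L)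
    (hP : Paths w L e F gd V H rs lm)
    (hK : K ≤ Λ) {x : X} {ud : ℕ → X → Prop} (hR : Rgn g gd K x ud)
    (ht : tp w L gd V H rs e0 C2 K x = Λ) (j : J)
    (A : Fin 4 → ℕ → X → ℝ) (m : Fin 4) {p : ℝ} (hp : 0 ≤ p)
    (H1 : ∀ i, K ≤ i → i < Λ → ∀ a, TR nv ud (update A m (st ((S j).a i a))) ≤
      p * (w j).ω i K x a * cd g K x) :
    TR nv ud (update A m (st (fun y => V j Λ y - V j K y))) ≤ p * (e0 * cd g K x) := by
  have hcd := Vale.Agent.P141.H297.cd_pos g K x
  -- the static difference is the sum of the births of the scales `[K, Λ)`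
  have h1 : ∀ y ∈ g.cube K x, V j Λ y - V j K y =
      ∑ i ∈ Ico K Λ, ∑ a ∈ (bm (S j) i (H j i) (g.cube i x)).support,
        (bm (S j) i (H j i) (g.cube i x)) a * (S j).a i a y := by
    intro y hy
    have h2 := Vale.Agent.P141.H297.V_top_eq hP j hΛ hK ht hy
    rw [h2, sub_sub_cancel]
    refine sum_congr rfl fun i hi => ?_
    rw [birth_sum (S j) i (H j i) (x := x) (g.sub_le (mem_Ico.1 hi).1 _ hy)]
    rfl
  have h2 : TR nv ud (update A m (st (fun y => V j Λ y - V j K y))) =
      TR nv ud (update A m (∑ i ∈ Ico K Λ, ∑ a ∈ (bm (S j) i (H j i) (g.cube i x)).support,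
        (bm (S j) i (H j i) (g.cube i x)) a • st ((S j).a i a))) := by
    refine TR_congr fun k y hy l z hz => ?_
    by_cases hl : l = m
    · subst hl
      rw [update_self, update_self]
      have hz' : z ∈ g.cube K x := g.cube_subset (hR.bel k y hy).1 (hR.bel k y hy).2 hz
      show V j Λ z - V j K z = _
      rw [h1 z hz', Finset.sum_apply, Finset.sum_apply]
      refine sum_congr rfl fun i _ => ?_
      rw [Finset.sum_apply, Finset.sum_apply]
      rfl
    · rw [update_of_ne hl, update_of_ne hl]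
  rw [h2]
  refine (TR_sum _ A m _).trans ?_
  have h3 : ∀ i ∈ Ico K Λ, TR nv ud (update A m
      (∑ a ∈ (bm (S j) i (H j i) (g.cube i x)).support,
        (bm (S j) i (H j i) (g.cube i x)) a • st ((S j).a i a))) ≤
      p * lden (w j) i K (H j i) x * cd g K x := by
    intro i hi
    rw [mem_Ico] at hi
    refine (TR_sum _ A m _).trans ?_
    unfold lden Finsupp.sum
    rw [mul_sum, sum_mul]
    refine sum_le_sum fun a _ => ?_
    rw [TR_smul]
    refine (mul_le_mul_of_nonneg_left (H1 i hi.1 hi.2 a) (abs_nonneg _)).trans (le_of_eq ?_)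
    ring
  refine (sum_le_sum h3).trans ?_
  rw [← sum_mul, ← mul_sum, mul_assoc]
  refine mul_le_mul_of_nonneg_left (mul_le_mul_of_nonneg_right ?_ hcd.le) hp
  exact Vale.Agent.P141.H297.local_mass hP j he0 hΛ hK ht

end fam

end

end Vale.Agent.P141.H228
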