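import Vale.Agent.P141.H652.LabL
import Vale.Agent.P141.H831.LcaF
import Vale.Agent.P141.H401.CutUV

/-!
# P141, line (A), (TI), leaf `LBC1g`: row numbers of the definite cut families

Data with small fibres (`FibU`, `FibP`).

* `row_num` : sum over the `x0` of a cell of the rows of a killed input;
* `row_num_cb`, `row_num_C1` : the cut `b` and the normalised third family.
-/

namespace Vale.Agent.P141.H228.RowC

open Finset Matrix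
open Vale.Agent.P141.PL (Pt iv hs ix cx mem_iv ix_ix)
open Vale.Agent.P141.PL.H315 (Tri A2)
open Vale.Agent.P141.H48 (US ES BSl sst sst_congr)
open Vale.Agent.P141.H677 (fA fb fC kF)
open Vale.Agent.P141.H677.Sk (lam1)
open Vale.Agent.P141.H401 (mA mb mC cA cb FibU FibP)
open Vale.Agent.P141.H408 (C1)

noncomputable section

set_option linter.unusedSectionVars false

open scoped Classical

variable {ι : Type} [Fintype ι] [DecidableEq ι]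

/-- **Rows of a killed input**, time and cell at the same scale. -/
theorem row_num {n : ℕ} {e cP Λ lam : ℝ} {F : ℕ → Pt → ℝ} {Q : ℕ → Pt → Prop}
    (hB : BSl n e cP F Q) (he : 0 ≤ e) (a : ℤ × ℤ → ℝ) {K k : ℕ} (hk : k ≤ n)
    {w : ℤ → ℤ → ι → ℝ} {x1 m : ℤ}
    (hf : ∀ x2 ∈ iv k m, ¬ sst Λ a K k x1 x2 → ∑ y ∈ iv k m, w x1 y ⬝ᵥ w x1 y ≤ lam * 2 ^ k)
    (hl : 0 ≤ lam) (q : ℤ) :
    ∑ x0 ∈ iv k q, ∑ y ∈ iv k m, kF Λ a K F k (x0, x1, y) ^ 2 * (w x1 y ⬝ᵥ w x1 y) ≤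
      e * lam * 4 ^ k := by
  have h4 : (4 : ℝ) ^ k = 2 ^ k * 2 ^ k := by rw [← mul_pow]; norm_num
  have hp : 0 ≤ e * lam * 4 ^ k := by positivity
  have hw : ∀ y, 0 ≤ w x1 y ⬝ᵥ w x1 y := fun y => H444.FD.dot_nn _
  by_cases hst : ∃ x2 ∈ iv k m, ¬ sst Λ a K k x1 x2
  · obtain ⟨x2, hx2, h2⟩ := hst
    have h1 := hf x2 hx2 h2
    rw [sum_comm]
    calc ∑ y ∈ iv k m, ∑ x0 ∈ iv k q, kF Λ a K F k (x0, x1, y) ^ 2 * (w x1 y ⬝ᵥ w x1 y)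
        ≤ ∑ y ∈ iv k m, e * 2 ^ k * (w x1 y ⬝ᵥ w x1 y) := by
          refine sum_le_sum fun y _ => ?_
          rw [← sum_mul]
          exact mul_le_mul_of_nonneg_right (H816.line_kF0 hB he a K hk q x1 y) (hw y)
      _ = e * 2 ^ k * ∑ y ∈ iv k m, w x1 y ⬝ᵥ w x1 y := by rw [mul_sum]
      _ ≤ e * 2 ^ k * (lam * 2 ^ k) := mul_le_mul_of_nonneg_left h1 (by positivity)
      _ = _ := by rw [h4]; ring
  · push Not at hst
    refine le_trans (le_of_eq ?_) hp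
    refine sum_eq_zero fun x0 _ => sum_eq_zero fun y hy => ?_
    rw [H816.kF_dead (hst y hy), zero_pow two_ne_zero, zero_mul]

section cls

variable {p : H401.Num} {n : ℕ} {e cP ez : ℝ} {F2 F3 : ℕ → Pt → ℝ} {Q2 Q3 : ℕ → Pt → Prop}
  {K : ℕ} {s r : ℝ} {U : Tri} {u v : ℤ → ℤ → ι → ℝ} {x : Pt}

/-- the fibre of a cell through any of its points -/
theorem fibU_cell (hU : FibU p K x s r U u) {k : ℕ} (hk : k ≤ K) {x1 m : ℤ}
    (h1 : x1 ∈ iv K (ix K x.1)) (hm : m ∈ iv (K - k) (ix K x.2.1)) :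
    ∀ x2 ∈ iv k m, ¬ sst p.Lm U.1 K k x1 x2 →
      ∑ y ∈ iv k m, u x1 y ⬝ᵥ u x1 y ≤ lam1 p s r * 2 ^ k := by
  intro x2 hx2 h
  have h2 := hU k hk x1 h1 x2 (mem_iv.2 (H576.root_pt hk hm hx2)) h
  rwa [mem_iv.1 hx2] at h2

theorem row_mb (hB : BSl n e cP F3 Q3) (he : 0 ≤ e) (hK : K ≤ n) (ht : 0 < p.t) (hs : 0 < s)
    (hr : 1 ≤ r) (hU : FibU p K x s r U u) {k : ℕ} (hk : k ≤ K) {x1 m : ℤ}
    (h1 : x1 ∈ iv K (ix K x.1)) (hm : m ∈ iv (K - k) (ix K x.2.1)) (q : ℤ) :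
    ∑ x0 ∈ iv k q, ∑ y ∈ iv k m, mb p U K u F3 x0 k x1 y ⬝ᵥ mb p U K u F3 x0 k x1 y ≤
      e * lam1 p s r * 4 ^ k := by
  refine (le_of_eq ?_).trans (row_num (Λ := p.Lm) hB he U.1 (hk.trans hK)
    (fibU_cell hU hk h1 hm) (H401.lam1_pos ht hs hr).le q)
  refine sum_congr rfl fun x0 _ => sum_congr rfl fun y _ => ?_
  unfold H401.mb H677.fb
  rw [smul_dotProduct, dotProduct_smul, smul_eq_mul, smul_eq_mul, ← mul_assoc, ← sq]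

/-- **Rows of the cut `b`.** -/
theorem row_num_cb (hB : BSl n e cP F3 Q3) (he : 0 ≤ e) (hK : K ≤ n) (ht : 0 < p.t) (hs : 0 < s)
    (hr : 1 ≤ r) (hU : FibU p K x s r U u) {k : ℕ} (hk : k < K) {x1 m : ℤ}
    (h1 : x1 ∈ iv K (ix K x.1)) (hm : m ∈ iv (K - (k + 1)) (ix K x.2.1)) (q : ℤ) :
    ∑ x0 ∈ iv (k + 1) q, ∑ y ∈ iv (k + 1) m,
      cb p s r U K u F3 Q3 x0 (k + 1) x1 y ⬝ᵥ cb p s r U K u F3 Q3 x0 (k + 1) x1 y ≤
      e * lam1 p s r * 4 ^ (k + 1) := by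
  refine le_trans (sum_le_sum fun x0 _ => ?_) (row_mb hB he hK ht hs hr hU hk h1 hm q)
  rw [H205.sum_iv_two' k m fun y => cb p s r U K u F3 Q3 x0 (k + 1) x1 y ⬝ᵥ
      cb p s r U K u F3 Q3 x0 (k + 1) x1 y,
    H205.sum_iv_two' k m fun y => mb p U K u F3 x0 (k + 1) x1 y ⬝ᵥ
      mb p U K u F3 x0 (k + 1) x1 y]
  exact add_le_add (H652.row_cb hB hK hk x0 (2 * m) x1) (H652.row_cb hB hK hk x0 (2 * m + 1) x1)

/-- the fibre of a cell through any of its points -/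
theorem fibP_cell {s r : ℝ} (hU : FibP p K x s r U v) {k : ℕ} (hk : k ≤ K) {x1 m : ℤ}
    (h1 : x1 ∈ iv K (ix K x.1)) (hm : m ∈ iv (K - k) (ix K x.2.2)) :
    ∀ x2 ∈ iv k m, ¬ sst p.Lm U.2.1 K k x1 x2 →
      ∑ y ∈ iv k m, v x1 y ⬝ᵥ v x1 y ≤ lam1 p s r * 2 ^ k := by
  intro x2 hx2 h
  have h2 := hU k hk x1 h1 x2 (mem_iv.2 (H576.root_pt hk hm hx2)) h
  rwa [mem_iv.1 hx2] at h2

/-- **Rows of the normalised third family.** -/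
theorem row_num_C1 {s r : ℝ} (hB : BSl n ez cP F2 Q2) (hez : 0 < ez) (hK : K ≤ n) (ht : 0 < p.t)
    (hs : 0 < s) (hr : 1 ≤ r) (hV : FibP p K x s r U v) {k : ℕ} (hk : k ≤ K) {x1 m : ℤ}
    (h1 : x1 ∈ iv K (ix K x.1)) (hm : m ∈ iv (K - k) (ix K x.2.2)) (q : ℤ) :
    ∑ x0 ∈ iv k q, ∑ z ∈ iv k m,
      C1 p ez U K v F2 x0 k z x1 ⬝ᵥ C1 p ez U K v F2 x0 k z x1 ≤ lam1 p s r * 4 ^ k := by
  have h := row_num (Λ := p.Lm) hB hez.le U.2.1 (hk.trans hK) (fibP_cell hV hk h1 hm)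
    (H401.lam1_pos ht hs hr).le q
  have e2 : (√ez)⁻¹ * (√ez)⁻¹ = ez⁻¹ := by
    rw [← mul_inv, Real.mul_self_sqrt hez.le]
  have e1 : ∑ x0 ∈ iv k q, ∑ z ∈ iv k m,
      C1 p ez U K v F2 x0 k z x1 ⬝ᵥ C1 p ez U K v F2 x0 k z x1 = ez⁻¹ *
      ∑ x0 ∈ iv k q, ∑ y ∈ iv k m, kF p.Lm U.2.1 K F2 k (x0, x1, y) ^ 2 * (v x1 y ⬝ᵥ v x1 y) := by
    rw [mul_sum]
    refine sum_congr rfl fun x0 _ => ?_
    rw [mul_sum]
    refine sum_congr rfl fun z _ => ?_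
    unfold H408.C1 H401.mC H677.fC
    rw [smul_dotProduct, dotProduct_smul, smul_dotProduct, dotProduct_smul, smul_eq_mul,
      smul_eq_mul, smul_eq_mul, smul_eq_mul, ← e2]
    ring
  rw [e1]
  refine (mul_le_mul_of_nonneg_left h (inv_nonneg.2 hez.le)).trans (le_of_eq ?_)
  field_simp

end cls

end

end Vale.Agent.P141.H228.RowC
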