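import Vale.Agent.P141.H609.NodeStep

/-!
# P141, line (A): the stage sum with a loss `√(τ / h)` at the level `h`

`stageL` is `H609.stageN` with the constants of the three pair sums multiplied by `√(τ / h)`:
the powers of `log (1 / h)` in the pair sums of a moving slot are absorbed (`log_absorb`).
-/

namespace Vale.Agent.P141.H228

open Finset Matrix Vale.Agent.P075 Vale.Agent.P141.PL Vale.Agent.P141.PL.H588
open Vale.Agent.P141.PL.H804 Vale.Agent.P141.H958 Vale.Agent.P141.H609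

noncomputable section

/-! ### Sums of square roots of levels -/

theorem sq_half {y : ℝ} (hy : 0 ≤ y) : √(y / 2) ≤ 5 / 7 * √y := by
  rw [show (5 / 7 : ℝ) * √y = √((5 / 7) ^ 2 * y) by
    rw [Real.sqrt_mul (by positivity), Real.sqrt_sq (by norm_num)]]
  refine Real.sqrt_le_sqrt ?_
  linarith

theorem rt_sum_succ {x : ℝ} (hx : 0 ≤ x) (a L : ℕ) :
    ∑ j ∈ range L, √(x / 2 ^ ((a + 1 + j) - 1)) + 7 / 2 * √(x / 2 ^ (a + L)) ≤
      7 / 2 * √(x / 2 ^ a) := by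
  induction L with
  | zero => simp
  | succ L ih =>
    rw [sum_range_succ]
    have e1 : a + 1 + L - 1 = a + L := by omega
    have e2 : x / 2 ^ (a + (L + 1)) = x / 2 ^ (a + L) / 2 := by
      rw [show a + (L + 1) = (a + L) + 1 by ring, pow_succ]
      field_simp
    rw [e1, e2]
    have h := sq_half (by positivity : 0 ≤ x / 2 ^ (a + L))
    linarith

theorem rt_sum {x : ℝ} (hx : 0 ≤ x) (a L : ℕ) :
    ∑ j ∈ range L, √(x / 2 ^ ((a + j) - 1)) ≤ 9 / 2 * √(x / 2 ^ (a - 1)) := by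
  cases a with
  | succ a =>
    have h := rt_sum_succ hx a L
    have h1 : 0 ≤ √(x / 2 ^ (a + L)) := Real.sqrt_nonneg _
    have h2 : 0 ≤ √(x / 2 ^ a) := Real.sqrt_nonneg _
    simp only [Nat.add_sub_cancel] at h ⊢
    linarith
  | zero =>
    cases L with
    | zero => simp
    | succ L =>
      rw [sum_range_succ']
      have h := rt_sum_succ hx 0 L
      have h1 : 0 ≤ √(x / 2 ^ (0 + L)) := Real.sqrt_nonneg _
      have h3 : ∑ j ∈ range L, √(x / 2 ^ ((0 + (j + 1)) - 1)) =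
          ∑ j ∈ range L, √(x / 2 ^ ((0 + 1 + j) - 1)) :=
        sum_congr rfl fun j _ => by rw [show 0 + (j + 1) = 0 + 1 + j by ring]
      rw [h3]
      simp only [pow_zero, div_one, Nat.zero_sub, add_zero] at *
      linarith

/-- The sum of the costs: `y √s` below `σ`, `z` above. -/
theorem rt_cost_sum {x σ y z : ℝ} (hx : 0 ≤ x) (hy : 0 ≤ y) (hz : 0 ≤ z) {L₀ : ℕ}
    (hL : x / 2 ^ (L₀ - 1) ≤ σ) (a L : ℕ) :
    ∑ j ∈ range L, (if x / 2 ^ ((a + j) - 1) ≤ σ then y * √(x / 2 ^ ((a + j) - 1)) else z) ≤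
      z * (L₀ - a : ℕ) + y * (9 / 2 * √σ) := by
  induction L generalizing a with
  | zero => simp; positivity
  | succ L ih =>
    by_cases h : x / 2 ^ (a - 1) ≤ σ
    · have h1 : ∀ j ∈ range (L + 1), (if x / 2 ^ ((a + j) - 1) ≤ σ then
          y * √(x / 2 ^ ((a + j) - 1)) else z) = y * √(x / 2 ^ ((a + j) - 1)) := fun j _ =>
        if_pos ((lev_anti hx (Nat.le_add_right a j)).trans h)
      rw [sum_congr rfl h1, ← mul_sum]
      have h2 := rt_sum hx a (L + 1)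
      have h3 := mul_le_mul_of_nonneg_left (h2.trans (mul_le_mul_of_nonneg_left
        (Real.sqrt_le_sqrt h) (by norm_num : (0 : ℝ) ≤ 9 / 2))) hy
      have h4 : 0 ≤ z * ((L₀ - a : ℕ) : ℝ) := by positivity
      linarith
    · have ha : a < L₀ := by
        by_contra h1
        exact h ((lev_anti hx (not_lt.1 h1)).trans hL)
      rw [sum_range_succ', add_zero, if_neg h]
      have h3 : ∑ j ∈ range L, (if x / 2 ^ ((a + (j + 1)) - 1) ≤ σ then
          y * √(x / 2 ^ ((a + (j + 1)) - 1)) else z) =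
          ∑ j ∈ range L, (if x / 2 ^ ((a + 1 + j) - 1) ≤ σ then
          y * √(x / 2 ^ ((a + 1 + j) - 1)) else z) :=
        sum_congr rfl fun j _ => by rw [show a + (j + 1) = a + 1 + j by ring]
      rw [h3]
      have h4 := ih (a + 1)
      have h5 : ((L₀ - a : ℕ) : ℝ) = (L₀ - (a + 1) : ℕ) + 1 := by
        rw [show L₀ - a = (L₀ - (a + 1)) + 1 by omega]
        push_cast
        ring
      rw [h5]
      linarith

/-! ### The schedule -/

/-- **The unbalanced schedule**, cost `κ √(τ s)` at the level `s`. -/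
theorem schedL {f : ℕ → ℕ → ℕ → ℝ} {K cA cB cC θ τ κ κ' : ℝ} (hA : 0 < cA) (hB : 0 < cB)
    (hC : 0 < cC) (hθ : 0 < θ) (hτA : cA ≤ τ) (hτB : cB ≤ τ) (hκ : 0 ≤ κ) (hκ' : 0 ≤ κ')
    (ht : ∀ a b e, f a b e ≤ K * (2 ^ (a + b + e))⁻¹) {L₀ : ℕ}
    (hL : cC / 2 ^ (L₀ - 1) ≤ θ * τ)
    (sA : ∀ a b e, cB / 2 ^ (b - 1) ≤ cA / 2 ^ (a - 1) →
      cC / 2 ^ (e - 1) ≤ θ * (cA / 2 ^ (a - 1)) →
      f a b e ≤ f (a + 1) b e + κ * (√τ * √(cA / 2 ^ (a - 1))))
    (sB : ∀ a b e, cA / 2 ^ (a - 1) ≤ cB / 2 ^ (b - 1) →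
      cC / 2 ^ (e - 1) ≤ θ * (cB / 2 ^ (b - 1)) →
      f a b e ≤ f a (b + 1) e + κ * (√τ * √(cB / 2 ^ (b - 1))))
    (sC : ∀ a b e, cC / 2 ^ (e - 1) ≤ θ * τ → θ * (cA / 2 ^ (a - 1)) ≤ cC / 2 ^ (e - 1) →
      θ * (cB / 2 ^ (b - 1)) ≤ cC / 2 ^ (e - 1) →
      f a b e ≤ f a b (e + 1) + κ * (√τ * √(cC / 2 ^ (e - 1) / θ)))
    (sC' : ∀ a b e, θ * τ < cC / 2 ^ (e - 1) → f a b e ≤ f a b (e + 1) + κ') :
    f 0 0 0 ≤ 27 / 2 * κ * τ + κ' * L₀ := by
  have hτ : 0 < τ := hA.trans_le hτA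
  have rr : √τ * √τ = τ := Real.mul_self_sqrt hτ.le
  have n0 : 0 ≤ √τ := Real.sqrt_nonneg _
  have main := ind3 (f := f) (κA := fun a => κ * √τ * √(cA / 2 ^ (a - 1)))
    (κB := fun b => κ * √τ * √(cB / 2 ^ (b - 1)))
    (κC := fun e => if cC / 2 ^ (e - 1) ≤ θ * τ then (κ * √τ / √θ) * √(cC / 2 ^ (e - 1)) else κ')
    (fun j => by positivity) (fun j => by positivity)
    (fun j => by
      split_ifs
      · positivity
      · exact hκ') ht (a₀ := 0) (b₀ := 0) (e₀ := 0) (fun a b e _ _ _ => ?_)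
    (SA := 9 / 2 * κ * τ) (SB := 9 / 2 * κ * τ) (SC := κ' * L₀ + (κ * √τ / √θ) * (9 / 2 * √(θ * τ)))
    (fun L => ?_) (fun L => ?_) (fun L => ?_)
  · refine main.trans (le_of_eq ?_)
    have hs : 0 < √θ := Real.sqrt_pos.2 hθ
    rw [Real.sqrt_mul hθ.le]
    have e1 : κ * √τ / √θ * (9 / 2 * (√θ * √τ)) = 9 / 2 * κ * (√τ * √τ) := by
      field_simp
    rw [e1, rr]
    ring
  · by_cases h1 : cC / 2 ^ (e - 1) ≤ θ * τ
    · simp only [if_pos h1]
      have e1 : κ * (√τ * √(cC / 2 ^ (e - 1) / θ)) = (κ * √τ / √θ) * √(cC / 2 ^ (e - 1)) := by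
        rw [Real.sqrt_div (by positivity)]
        ring
      rcases le_total (cA / 2 ^ (a - 1)) (cB / 2 ^ (b - 1)) with h2 | h2
      · rcases le_total (cC / 2 ^ (e - 1)) (θ * (cB / 2 ^ (b - 1))) with h3 | h3
        · refine Or.inr (Or.inl ?_)
          rw [mul_assoc]
          exact sB a b e h2 h3
        · refine Or.inr (Or.inr ?_)
          rw [← e1]
          exact sC a b e h1 ((mul_le_mul_of_nonneg_left h2 hθ.le).trans h3) h3
      · rcases le_total (cC / 2 ^ (e - 1)) (θ * (cA / 2 ^ (a - 1))) with h3 | h3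
        · refine Or.inl ?_
          rw [mul_assoc]
          exact sA a b e h2 h3
        · refine Or.inr (Or.inr ?_)
          rw [← e1]
          exact sC a b e h1 h3 ((mul_le_mul_of_nonneg_left h2 hθ.le).trans h3)
    · simp only [if_neg h1]
      exact Or.inr (Or.inr (sC' a b e (not_le.1 h1)))
  · rw [← mul_sum]
    have h1 := rt_sum hA.le 0 L
    simp only [Nat.zero_sub, pow_zero, div_one] at h1
    have h2 := mul_le_mul_of_nonneg_left (h1.trans (mul_le_mul_of_nonneg_left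
      (Real.sqrt_le_sqrt hτA) (by norm_num : (0 : ℝ) ≤ 9 / 2))) (mul_nonneg hκ n0)
    have e : κ * √τ * (9 / 2 * √τ) = 9 / 2 * κ * (√τ * √τ) := by ring
    rw [rr] at e
    linarith
  · rw [← mul_sum]
    have h1 := rt_sum hB.le 0 L
    simp only [Nat.zero_sub, pow_zero, div_one] at h1
    have h2 := mul_le_mul_of_nonneg_left (h1.trans (mul_le_mul_of_nonneg_left
      (Real.sqrt_le_sqrt hτB) (by norm_num : (0 : ℝ) ≤ 9 / 2))) (mul_nonneg hκ n0)
    have e : κ * √τ * (9 / 2 * √τ) = 9 / 2 * κ * (√τ * √τ) := by ring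
    rw [rr] at e
    linarith
  · have h := rt_cost_sum hC.le (by positivity : 0 ≤ κ * √τ / √θ) hκ' hL 0 L
    simpa only [Nat.sub_zero] using h

/-! ### The stage sum -/

section

variable {N : ℕ} {s : ℕ → Finset Pt} {cA cB cC : ℝ} {FA FB FC : NM}

theorem inv_cost {h τ : ℝ} (hh : 0 < h) (hτ : 0 < τ) (q : ℝ) :
    6 * h⁻¹ * (q * (h ^ 2 * √(τ / h))) = 6 * q * (√τ * √h) := by
  have hs : 0 < √h := Real.sqrt_pos.2 hh
  have e : √h * √h = h := Real.mul_self_sqrt hh.le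
  rw [Real.sqrt_div hτ.le]
  have e2 : 6 * h⁻¹ * (q * (h ^ 2 * (√τ / √h))) = 6 * q * √τ * (h / √h) := by
    field_simp
  have e3 : h / √h = √h := by
    rw [div_eq_iff hs.ne', e]
  rw [e2, e3]
  ring

theorem key_sq {E P P' x y : ℝ} (hE : 0 ≤ E) (hP : 0 ≤ P) (hP' : 0 ≤ P') (hy0 : 0 ≤ y)
    (hx : x ≤ P * E) (hy : y ≤ P' * E) : √(x * y) ≤ √(P * P') * E := by
  have e : √(P * P') * E = √((P * P') * E ^ 2) := by
    rw [Real.sqrt_mul (mul_nonneg hP hP') (E ^ 2), Real.sqrt_sq hE]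
  rw [e]
  refine Real.sqrt_le_sqrt ((mul_le_mul hx hy hy0 (by positivity)).trans (le_of_eq ?_))
  ring

/-- **The stage sum**, `H609.stageN` with the loss `√(τ / h)` in the three pair sums. -/
theorem stageL (hA : 0 < cA) (hB : 0 < cB) (hC : 0 < cC)
    (capA : ∀ k ∈ Icc 1 N, ∀ m ∈ s k, (1 - gramC ((cA ^ 2)⁻¹ * (4 ^ k)⁻¹) (FA k m)).PosSemidef)
    (capB : ∀ k ∈ Icc 1 N, ∀ m ∈ s k, (1 - gramC ((cB ^ 2)⁻¹ * (4 ^ k)⁻¹) (FB k m)).PosSemidef)
    (capC : ∀ k ∈ Icc 1 N, ∀ m ∈ s k, (1 - gramC ((cC ^ 2)⁻¹ * (4 ^ k)⁻¹) (FC k m)).PosSemidef)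
    {θ τ P₀ PA PB κ' : ℝ} (hθ : 0 < θ) (hτA : cA ≤ τ) (hτB : cB ≤ τ) (hP₀ : 0 ≤ P₀)
    (hPA : 0 ≤ PA) (hPB : 0 ≤ PB) (hκ' : 0 ≤ κ')
    (hAB : ∀ h, 0 < h → h ≤ τ → RP N s h h FA FB ≤ P₀ * (h ^ 2 * √(τ / h)))
    (hBC : ∀ h, 0 < h → h ≤ τ → RP N s h (θ * h) FB FC ≤ PB * (h ^ 2 * √(τ / h)))
    (hCA : ∀ h, 0 < h → h ≤ τ → RP N s (θ * h) h FC FA ≤ PA * (h ^ 2 * √(τ / h)))
    (hT : ∀ x, θ * τ ≤ x → x ≤ cC → √(RP N s cB x FB FC * RP N s x cA FC FA) ≤ κ' * x)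
    {L₀ : ℕ} (hL : cC / 2 ^ (L₀ - 1) ≤ θ * τ) :
    UN N s cA cB cC FA FB FC 0 0 0 ≤
      81 * (√(P₀ * PA) + √(P₀ * PB) + √(PA * PB) / θ) * τ + 6 * κ' * L₀ := by
  have hτ0 : 0 < τ := hA.trans_le hτA
  obtain ⟨K, _, hK⟩ := UN_tail (FA := FA) (FB := FB) (FC := FC) hA hB hC capA capB capC
  set κ : ℝ := 6 * (√(P₀ * PA) + √(P₀ * PB) + √(PA * PB) / θ) with hκ
  have n1 : 0 ≤ √(P₀ * PA) := Real.sqrt_nonneg _
  have n2 : 0 ≤ √(P₀ * PB) := Real.sqrt_nonneg _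
  have n3 : 0 ≤ √(PA * PB) / θ := by positivity
  have κ0 : 0 ≤ κ := by positivity
  have lvA : ∀ a : ℕ, cA / 2 ^ (a - 1) ≤ cA := fun a => div_le_self hA.le (one_le_pow₀ (by norm_num))
  have lvB : ∀ a : ℕ, cB / 2 ^ (a - 1) ≤ cB := fun a => div_le_self hB.le (one_le_pow₀ (by norm_num))
  have lvC : ∀ a : ℕ, cC / 2 ^ (a - 1) ≤ cC := fun a => div_le_self hC.le (one_le_pow₀ (by norm_num))
  have main := schedL (f := UN N s cA cB cC FA FB FC) (θ := θ) (τ := τ) (κ := κ) (κ' := 6 * κ')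
    hA hB hC hθ hτA hτB κ0 (by positivity) hK hL (fun a b e h1 h2 => ?_) (fun a b e h1 h2 => ?_)
    (fun a b e h0 h1 h2 => ?_) (fun a b e h0 => ?_)
  · refine main.trans (le_of_eq ?_)
    rw [hκ]
    ring
  · set h := cA / 2 ^ (a - 1) with hh
    have ph : 0 < h := by positivity
    have pB : 0 < cB / 2 ^ (b - 1) := by positivity
    have pC : 0 < cC / 2 ^ (e - 1) := by positivity
    have hτ : h ≤ τ := (lvA a).trans hτA
    have r1 : RP N s (cC / 2 ^ (e - 1)) h FC FA ≤ PA * (h ^ 2 * √(τ / h)) :=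
      (RP_mono pC ph h2 le_rfl).trans (hCA h ph hτ)
    have r2 : RP N s h (cB / 2 ^ (b - 1)) FA FB ≤ P₀ * (h ^ 2 * √(τ / h)) :=
      (RP_mono ph pB le_rfl h1).trans (hAB h ph hτ)
    refine (UN_A hA hB hC capA capB capC a b e le_rfl le_rfl).trans (add_le_add le_rfl ?_)
    rw [← hh]
    have k1 := key_sq (by positivity) hPA hP₀ RP_nonneg r1 r2
    rw [mul_comm PA P₀] at k1
    have k2 := mul_le_mul_of_nonneg_left k1 (by positivity : 0 ≤ 6 * h⁻¹)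
    rw [inv_cost ph hτ0] at k2
    have k4 : 6 * √(P₀ * PA) * (√τ * √h) ≤ κ * (√τ * √h) := by
      refine mul_le_mul_of_nonneg_right ?_ (by positivity)
      rw [hκ]
      linarith
    linarith
  · set h := cB / 2 ^ (b - 1) with hh
    have ph : 0 < h := by positivity
    have pA : 0 < cA / 2 ^ (a - 1) := by positivity
    have pC : 0 < cC / 2 ^ (e - 1) := by positivity
    have hτ : h ≤ τ := (lvB b).trans hτB
    have r1 : RP N s (cA / 2 ^ (a - 1)) h FA FB ≤ P₀ * (h ^ 2 * √(τ / h)) :=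
      (RP_mono pA ph h1 le_rfl).trans (hAB h ph hτ)
    have r2 : RP N s h (cC / 2 ^ (e - 1)) FB FC ≤ PB * (h ^ 2 * √(τ / h)) :=
      (RP_mono ph pC le_rfl h2).trans (hBC h ph hτ)
    refine (UN_B hA hB hC capA capB capC a b e le_rfl le_rfl).trans (add_le_add le_rfl ?_)
    rw [← hh]
    have k1 := key_sq (by positivity) hP₀ hPB RP_nonneg r1 r2
    have k2 := mul_le_mul_of_nonneg_left k1 (by positivity : 0 ≤ 6 * h⁻¹)
    rw [inv_cost ph hτ0] at k2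
    have k4 : 6 * √(P₀ * PB) * (√τ * √h) ≤ κ * (√τ * √h) := by
      refine mul_le_mul_of_nonneg_right ?_ (by positivity)
      rw [hκ]
      linarith
    linarith
  · set x := cC / 2 ^ (e - 1) with hx
    have px : 0 < x := by positivity
    set h := x / θ with hh
    have ph : 0 < h := by positivity
    have ex : x = θ * h := by rw [hh]; field_simp
    have hτ : h ≤ τ := by rw [hh, div_le_iff₀ hθ]; linarith
    have pA : 0 < cA / 2 ^ (a - 1) := by positivity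
    have pB : 0 < cB / 2 ^ (b - 1) := by positivity
    have g1 : cA / 2 ^ (a - 1) ≤ h := by rw [hh, le_div_iff₀ hθ]; linarith
    have g2 : cB / 2 ^ (b - 1) ≤ h := by rw [hh, le_div_iff₀ hθ]; linarith
    have r1 : RP N s (cB / 2 ^ (b - 1)) x FB FC ≤ PB * (h ^ 2 * √(τ / h)) :=
      (RP_mono pB px g2 ex.le).trans (hBC h ph hτ)
    have r2 : RP N s x (cA / 2 ^ (a - 1)) FC FA ≤ PA * (h ^ 2 * √(τ / h)) :=
      (RP_mono px pA ex.le g1).trans (hCA h ph hτ)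
    refine (UN_C hA hB hC capA capB capC a b e le_rfl le_rfl).trans (add_le_add le_rfl ?_)
    rw [← hx]
    have k1 := key_sq (by positivity) hPB hPA RP_nonneg r1 r2
    rw [mul_comm PB PA] at k1
    have k2 := mul_le_mul_of_nonneg_left k1 (by positivity : 0 ≤ 6 * x⁻¹)
    have k3 : 6 * x⁻¹ * (√(PA * PB) * (h ^ 2 * √(τ / h))) =
        6 * h⁻¹ * ((√(PA * PB) / θ) * (h ^ 2 * √(τ / h))) := by
      rw [ex]
      field_simp
    rw [k3, inv_cost ph hτ0] at k2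
    have k4 : 6 * (√(PA * PB) / θ) * (√τ * √h) ≤ κ * (√τ * √h) := by
      refine mul_le_mul_of_nonneg_right ?_ (by positivity)
      rw [hκ]
      linarith
    linarith
  · set x := cC / 2 ^ (e - 1) with hx
    have px : 0 < x := by positivity
    have pA : 0 < cA / 2 ^ (a - 1) := by positivity
    have pB : 0 < cB / 2 ^ (b - 1) := by positivity
    refine (UN_C hA hB hC capA capB capC a b e le_rfl le_rfl).trans (add_le_add le_rfl ?_)
    rw [← hx]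
    have r1 : RP N s (cB / 2 ^ (b - 1)) x FB FC ≤ RP N s cB x FB FC :=
      RP_mono pB px (lvB b) le_rfl
    have r2 : RP N s x (cA / 2 ^ (a - 1)) FC FA ≤ RP N s x cA FC FA :=
      RP_mono px pA le_rfl (lvA a)
    have k1 : √(RP N s (cB / 2 ^ (b - 1)) x FB FC * RP N s x (cA / 2 ^ (a - 1)) FC FA) ≤ κ' * x :=
      (Real.sqrt_le_sqrt (mul_le_mul r1 r2 RP_nonneg RP_nonneg)).trans (hT x h0.le (lvC e))
    have k2 := mul_le_mul_of_nonneg_left k1 (by positivity : 0 ≤ 6 * x⁻¹)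
    have k3 : 6 * x⁻¹ * (κ' * x) = 6 * κ' := by field_simp
    rw [k3] at k2
    linarith

end

/-! ### Powers of the logarithm -/

/-- a power is dominated by an exponential -/
theorem pow_exp_bound (k : ℕ) {r : ℝ} (hr : 1 < r) :
    ∃ C : ℝ, 0 ≤ C ∧ ∀ n : ℕ, ((n : ℝ) + 2) ^ k ≤ C * r ^ n := by
  obtain ⟨C, hC⟩ := (tendsto_pow_const_div_const_pow_of_one_lt k hr).bddAbove_range
  have hC' : ∀ n : ℕ, (n : ℝ) ^ k / r ^ n ≤ C := fun n => hC ⟨n, rfl⟩
  have r0 : 0 < r := by linarith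
  refine ⟨|C| * r ^ 2, by positivity, fun n => ?_⟩
  have h := (hC' (n + 2)).trans (le_abs_self C)
  rw [div_le_iff₀ (by positivity), pow_add] at h
  push_cast at h
  linarith

/-- **The powers of the number of levels are absorbed by `√(τ / h)`.** -/
theorem log_absorb (k : ℕ) : ∃ C : ℝ, 0 ≤ C ∧ ∀ (J : ℕ) (τ h : ℝ), 0 < h → h ≤ τ →
    ∃ i : ℕ, τ / h ≤ 2 ^ i ∧
      (((J + i : ℕ) : ℝ) + 1) ^ k ≤ C * ((J : ℝ) + 1) ^ k * √(τ / h) := by
  have r1 : 1 < √(2 : ℝ) := by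
    rw [Real.lt_sqrt (by norm_num)]
    norm_num
  obtain ⟨C, C0, hC⟩ := pow_exp_bound k r1
  refine ⟨C, C0, fun J τ h hh hτ => ?_⟩
  have h1 : 1 ≤ τ / h := by rwa [le_div_iff₀ hh, one_mul]
  obtain ⟨n, hn, hn'⟩ := exists_nat_pow_near h1 (one_lt_two : (1 : ℝ) < 2)
  refine ⟨n + 1, hn'.le, ?_⟩
  have h2 := hC n
  have h3 : √(2 : ℝ) ^ n ≤ √(τ / h) := by
    have e : √(2 : ℝ) ^ n = √((2 : ℝ) ^ n) := by
      rw [eq_comm, Real.sqrt_eq_iff_mul_self_eq (by positivity) (by positivity), ← mul_pow,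
        Real.mul_self_sqrt (by norm_num)]
    rw [e]
    exact Real.sqrt_le_sqrt hn
  have h4 : ((J + (n + 1) : ℕ) : ℝ) + 1 ≤ ((J : ℝ) + 1) * ((n : ℝ) + 2) := by
    push_cast
    have a : 0 ≤ (J : ℝ) := Nat.cast_nonneg J
    have b : 0 ≤ (n : ℝ) := Nat.cast_nonneg n
    nlinarith [mul_nonneg a b]
  calc (((J + (n + 1) : ℕ) : ℝ) + 1) ^ k ≤ (((J : ℝ) + 1) * ((n : ℝ) + 2)) ^ k :=
        pow_le_pow_left₀ (by positivity) h4 k
    _ = ((J : ℝ) + 1) ^ k * ((n : ℝ) + 2) ^ k := mul_pow _ _ _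
    _ ≤ ((J : ℝ) + 1) ^ k * (C * √(τ / h)) := by
        refine mul_le_mul_of_nonneg_left (h2.trans ?_) (by positivity)
        exact mul_le_mul_of_nonneg_left h3 C0
    _ = C * ((J : ℝ) + 1) ^ k * √(τ / h) := by ring

end

end Vale.Agent.P141.H228
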