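import Vale.Agent.P141.H228.StageL
import Vale.Agent.P141.H750.NodeG

/-!
# P141, line (A): the stage sum of a family, arbitrary index types, loss `√(τ / h)`

`stageLG` is `stageL` for a finite family of node matrices over arbitrary index types with
symmetric involutions (the letters of `H750.NG`).
-/

namespace Vale.Agent.P141.H228

open Finset Matrix Vale.Agent.P075 Vale.Agent.P141.PL Vale.Agent.P141.PL.H588
open Vale.Agent.P141.PL.H804 Vale.Agent.P141.H958 Vale.Agent.P141.H609 Vale.Agent.P141.H581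
open Vale.Agent.P141.H750.NG

noncomputable section

variable {ι : ℕ → Type} [∀ k, Fintype (ι k)] [∀ k, DecidableEq (ι k)] {X : Type*}
  {hh : ∀ k, Matrix (ι k) (ι k) ℝ} {I : Finset X} {N : ℕ} {s : X → ℕ → Finset Pt}
  {cA cB cC : ℝ} {FA FB FC : X → NMg ι}

section steps

variable (hs : ∀ k, (hh k)ᵀ = hh k) (hq : ∀ k, hh k * hh k = 1)
  (hA : 0 < cA) (hB : 0 < cB) (hC : 0 < cC)
  (capA : ∀ i ∈ I, ∀ k ∈ Icc 1 N, ∀ m ∈ s i k,
    (1 - gramC ((cA ^ 2)⁻¹ * (4 ^ k)⁻¹) (FA i k m)).PosSemidef)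
  (capB : ∀ i ∈ I, ∀ k ∈ Icc 1 N, ∀ m ∈ s i k,
    (1 - gramC ((cB ^ 2)⁻¹ * (4 ^ k)⁻¹) (FB i k m)).PosSemidef)
  (capC : ∀ i ∈ I, ∀ k ∈ Icc 1 N, ∀ m ∈ s i k,
    (1 - gramC ((cC ^ 2)⁻¹ * (4 ^ k)⁻¹) (FC i k m)).PosSemidef)

include hs hq hA hB hC capA capB capC

theorem stepA (a b e : ℕ) :
    UXg hh I N s cA cB cC FA FB FC a b e ≤ UXg hh I N s cA cB cC FA FB FC (a + 1) b e +
      6 * ((cA / 2 ^ (a - 1))⁻¹ * √(RXg hh I N s (cC / 2 ^ (e - 1)) (cA / 2 ^ (a - 1)) FC FA *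
        RXg hh I N s (cA / 2 ^ (a - 1)) (cB / 2 ^ (b - 1)) FA FB)) := by
  have h1 : ∀ i ∈ I, UNg hh N (s i) cA cB cC (FA i) (FB i) (FC i) a b e ≤
      UNg hh N (s i) cA cB cC (FA i) (FB i) (FC i) (a + 1) b e + 6 * ((cA / 2 ^ (a - 1))⁻¹ *
        √(RPg hh N (s i) (cC / 2 ^ (e - 1)) (cA / 2 ^ (a - 1)) (FC i) (FA i) *
          RPg hh N (s i) (cA / 2 ^ (a - 1)) (cB / 2 ^ (b - 1)) (FA i) (FB i))) := fun i hi =>
    UNg_A hs hq hA hB hC (capA i hi) (capB i hi) (capC i hi) a b e le_rfl le_rfl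
  refine (sum_le_sum h1).trans ?_
  rw [sum_add_distrib, ← mul_sum, ← mul_sum]
  refine add_le_add_right (mul_le_mul_of_nonneg_left (mul_le_mul_of_nonneg_left
    (sum_sqrt_le (fun i => RPg_nonneg hs) fun i => RPg_nonneg hs) (by positivity)) (by norm_num)) _

theorem stepB (a b e : ℕ) :
    UXg hh I N s cA cB cC FA FB FC a b e ≤ UXg hh I N s cA cB cC FA FB FC a (b + 1) e +
      6 * ((cB / 2 ^ (b - 1))⁻¹ * √(RXg hh I N s (cA / 2 ^ (a - 1)) (cB / 2 ^ (b - 1)) FA FB *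
        RXg hh I N s (cB / 2 ^ (b - 1)) (cC / 2 ^ (e - 1)) FB FC)) := by
  have h1 : ∀ i ∈ I, UNg hh N (s i) cA cB cC (FA i) (FB i) (FC i) a b e ≤
      UNg hh N (s i) cA cB cC (FA i) (FB i) (FC i) a (b + 1) e + 6 * ((cB / 2 ^ (b - 1))⁻¹ *
        √(RPg hh N (s i) (cA / 2 ^ (a - 1)) (cB / 2 ^ (b - 1)) (FA i) (FB i) *
          RPg hh N (s i) (cB / 2 ^ (b - 1)) (cC / 2 ^ (e - 1)) (FB i) (FC i))) := fun i hi =>
    UNg_B hs hq hA hB hC (capA i hi) (capB i hi) (capC i hi) a b e le_rfl le_rfl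
  refine (sum_le_sum h1).trans ?_
  rw [sum_add_distrib, ← mul_sum, ← mul_sum]
  refine add_le_add_right (mul_le_mul_of_nonneg_left (mul_le_mul_of_nonneg_left
    (sum_sqrt_le (fun i => RPg_nonneg hs) fun i => RPg_nonneg hs) (by positivity)) (by norm_num)) _

theorem stepC (a b e : ℕ) :
    UXg hh I N s cA cB cC FA FB FC a b e ≤ UXg hh I N s cA cB cC FA FB FC a b (e + 1) +
      6 * ((cC / 2 ^ (e - 1))⁻¹ * √(RXg hh I N s (cB / 2 ^ (b - 1)) (cC / 2 ^ (e - 1)) FB FC *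
        RXg hh I N s (cC / 2 ^ (e - 1)) (cA / 2 ^ (a - 1)) FC FA)) := by
  have h1 : ∀ i ∈ I, UNg hh N (s i) cA cB cC (FA i) (FB i) (FC i) a b e ≤
      UNg hh N (s i) cA cB cC (FA i) (FB i) (FC i) a b (e + 1) + 6 * ((cC / 2 ^ (e - 1))⁻¹ *
        √(RPg hh N (s i) (cB / 2 ^ (b - 1)) (cC / 2 ^ (e - 1)) (FB i) (FC i) *
          RPg hh N (s i) (cC / 2 ^ (e - 1)) (cA / 2 ^ (a - 1)) (FC i) (FA i))) := fun i hi =>
    UNg_C hs hq hA hB hC (capA i hi) (capB i hi) (capC i hi) a b e le_rfl le_rfl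
  refine (sum_le_sum h1).trans ?_
  rw [sum_add_distrib, ← mul_sum, ← mul_sum]
  refine add_le_add_right (mul_le_mul_of_nonneg_left (mul_le_mul_of_nonneg_left
    (sum_sqrt_le (fun i => RPg_nonneg hs) fun i => RPg_nonneg hs) (by positivity)) (by norm_num)) _

theorem tailG : ∃ K : ℝ, ∀ a b e : ℕ,
    UXg hh I N s cA cB cC FA FB FC a b e ≤ K * (2 ^ (a + b + e))⁻¹ := by
  have h1 : ∀ i : X, ∃ K : ℝ, i ∈ I → ∀ a b e : ℕ,
      UNg hh N (s i) cA cB cC (FA i) (FB i) (FC i) a b e ≤ K * (2 ^ (a + b + e))⁻¹ := by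
    intro i
    by_cases hi : i ∈ I
    · obtain ⟨K, _, hK⟩ := UNg_tail (FA := FA i) (FB := FB i) (FC := FC i) hs hq hA hB hC
        (capA i hi) (capB i hi) (capC i hi)
      exact ⟨K, fun _ => hK⟩
    · exact ⟨0, fun h => absurd h hi⟩
  choose K hK using h1
  refine ⟨∑ i ∈ I, K i, fun a b e => ?_⟩
  unfold UXg
  rw [sum_mul]
  exact sum_le_sum fun i hi => hK i hi a b e

end steps

/-- **The stage sum of a family**, arbitrary index types, loss `√(τ / h)` in the pair sums. -/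
theorem stageLG (hs : ∀ k, (hh k)ᵀ = hh k) (hq : ∀ k, hh k * hh k = 1)
    (hA : 0 < cA) (hB : 0 < cB) (hC : 0 < cC)
    (capA : ∀ i ∈ I, ∀ k ∈ Icc 1 N, ∀ m ∈ s i k,
      (1 - gramC ((cA ^ 2)⁻¹ * (4 ^ k)⁻¹) (FA i k m)).PosSemidef)
    (capB : ∀ i ∈ I, ∀ k ∈ Icc 1 N, ∀ m ∈ s i k,
      (1 - gramC ((cB ^ 2)⁻¹ * (4 ^ k)⁻¹) (FB i k m)).PosSemidef)
    (capC : ∀ i ∈ I, ∀ k ∈ Icc 1 N, ∀ m ∈ s i k,
      (1 - gramC ((cC ^ 2)⁻¹ * (4 ^ k)⁻¹) (FC i k m)).PosSemidef)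
    {θ τ P₀ PA PB κ' : ℝ} (hθ : 0 < θ) (hτA : cA ≤ τ) (hτB : cB ≤ τ) (hP₀ : 0 ≤ P₀)
    (hPA : 0 ≤ PA) (hPB : 0 ≤ PB) (hκ' : 0 ≤ κ')
    (hAB : ∀ h, 0 < h → h ≤ τ → RXg hh I N s h h FA FB ≤ P₀ * (h ^ 2 * √(τ / h)))
    (hBC : ∀ h, 0 < h → h ≤ τ → RXg hh I N s h (θ * h) FB FC ≤ PB * (h ^ 2 * √(τ / h)))
    (hCA : ∀ h, 0 < h → h ≤ τ → RXg hh I N s (θ * h) h FC FA ≤ PA * (h ^ 2 * √(τ / h)))
    (hT : ∀ x, θ * τ ≤ x → x ≤ cC → √(RXg hh I N s cB x FB FC * RXg hh I N s x cA FC FA) ≤ κ' * x)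
    {L₀ : ℕ} (hL : cC / 2 ^ (L₀ - 1) ≤ θ * τ) :
    UXg hh I N s cA cB cC FA FB FC 0 0 0 ≤
      81 * (√(P₀ * PA) + √(P₀ * PB) + √(PA * PB) / θ) * τ + 6 * κ' * L₀ := by
  have hτ0 : 0 < τ := hA.trans_le hτA
  obtain ⟨K, hK⟩ := tailG (FA := FA) (FB := FB) (FC := FC) hs hq hA hB hC capA capB capC
  set κ : ℝ := 6 * (√(P₀ * PA) + √(P₀ * PB) + √(PA * PB) / θ) with hκ
  have n1 : 0 ≤ √(P₀ * PA) := Real.sqrt_nonneg _
  have n2 : 0 ≤ √(P₀ * PB) := Real.sqrt_nonneg _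
  have n3 : 0 ≤ √(PA * PB) / θ := by positivity
  have κ0 : 0 ≤ κ := by positivity
  have lvA : ∀ a : ℕ, cA / 2 ^ (a - 1) ≤ cA := fun a => div_le_self hA.le (one_le_pow₀ (by norm_num))
  have lvB : ∀ a : ℕ, cB / 2 ^ (a - 1) ≤ cB := fun a => div_le_self hB.le (one_le_pow₀ (by norm_num))
  have lvC : ∀ a : ℕ, cC / 2 ^ (a - 1) ≤ cC := fun a => div_le_self hC.le (one_le_pow₀ (by norm_num))
  have main := schedL (f := UXg hh I N s cA cB cC FA FB FC) (θ := θ) (τ := τ) (κ := κ) (κ' := 6 * κ')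
    hA hB hC hθ hτA hτB κ0 (by positivity) hK hL (fun a b e h1 h2 => ?_) (fun a b e h1 h2 => ?_)
    (fun a b e h0 h1 h2 => ?_) (fun a b e h0 => ?_)
  · refine main.trans (le_of_eq ?_)
    rw [hκ]
    ring
  · set h := cA / 2 ^ (a - 1) with hh0
    have ph : 0 < h := by positivity
    have pB : 0 < cB / 2 ^ (b - 1) := by positivity
    have pC : 0 < cC / 2 ^ (e - 1) := by positivity
    have hτ : h ≤ τ := (lvA a).trans hτA
    have r1 : RXg hh I N s (cC / 2 ^ (e - 1)) h FC FA ≤ PA * (h ^ 2 * √(τ / h)) :=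
      (RXg_mono hs pC ph h2 le_rfl).trans (hCA h ph hτ)
    have r2 : RXg hh I N s h (cB / 2 ^ (b - 1)) FA FB ≤ P₀ * (h ^ 2 * √(τ / h)) :=
      (RXg_mono hs ph pB le_rfl h1).trans (hAB h ph hτ)
    refine (stepA hs hq hA hB hC capA capB capC a b e).trans (add_le_add le_rfl ?_)
    rw [← hh0]
    have k1 := key_sq (by positivity) hPA hP₀ (RXg_nonneg hs) r1 r2
    rw [mul_comm PA P₀] at k1
    have k2 := mul_le_mul_of_nonneg_left k1 (by positivity : 0 ≤ 6 * h⁻¹)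
    rw [inv_cost ph hτ0] at k2
    have k4 : 6 * √(P₀ * PA) * (√τ * √h) ≤ κ * (√τ * √h) := by
      refine mul_le_mul_of_nonneg_right ?_ (by positivity)
      rw [hκ]
      linarith
    linarith
  · set h := cB / 2 ^ (b - 1) with hh0
    have ph : 0 < h := by positivity
    have pA : 0 < cA / 2 ^ (a - 1) := by positivity
    have pC : 0 < cC / 2 ^ (e - 1) := by positivity
    have hτ : h ≤ τ := (lvB b).trans hτB
    have r1 : RXg hh I N s (cA / 2 ^ (a - 1)) h FA FB ≤ P₀ * (h ^ 2 * √(τ / h)) :=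
      (RXg_mono hs pA ph h1 le_rfl).trans (hAB h ph hτ)
    have r2 : RXg hh I N s h (cC / 2 ^ (e - 1)) FB FC ≤ PB * (h ^ 2 * √(τ / h)) :=
      (RXg_mono hs ph pC le_rfl h2).trans (hBC h ph hτ)
    refine (stepB hs hq hA hB hC capA capB capC a b e).trans (add_le_add le_rfl ?_)
    rw [← hh0]
    have k1 := key_sq (by positivity) hP₀ hPB (RXg_nonneg hs) r1 r2
    have k2 := mul_le_mul_of_nonneg_left k1 (by positivity : 0 ≤ 6 * h⁻¹)
    rw [inv_cost ph hτ0] at k2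
    have k4 : 6 * √(P₀ * PB) * (√τ * √h) ≤ κ * (√τ * √h) := by
      refine mul_le_mul_of_nonneg_right ?_ (by positivity)
      rw [hκ]
      linarith
    linarith
  · set x := cC / 2 ^ (e - 1) with hx
    have px : 0 < x := by positivity
    set h := x / θ with hh0
    have ph : 0 < h := by positivity
    have ex : x = θ * h := by rw [hh0]; field_simp
    have hτ : h ≤ τ := by rw [hh0, div_le_iff₀ hθ]; linarith
    have pA : 0 < cA / 2 ^ (a - 1) := by positivity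
    have pB : 0 < cB / 2 ^ (b - 1) := by positivity
    have g1 : cA / 2 ^ (a - 1) ≤ h := by rw [hh0, le_div_iff₀ hθ]; linarith
    have g2 : cB / 2 ^ (b - 1) ≤ h := by rw [hh0, le_div_iff₀ hθ]; linarith
    have r1 : RXg hh I N s (cB / 2 ^ (b - 1)) x FB FC ≤ PB * (h ^ 2 * √(τ / h)) :=
      (RXg_mono hs pB px g2 ex.le).trans (hBC h ph hτ)
    have r2 : RXg hh I N s x (cA / 2 ^ (a - 1)) FC FA ≤ PA * (h ^ 2 * √(τ / h)) :=
      (RXg_mono hs px pA ex.le g1).trans (hCA h ph hτ)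
    refine (stepC hs hq hA hB hC capA capB capC a b e).trans (add_le_add le_rfl ?_)
    rw [← hx]
    have k1 := key_sq (by positivity) hPB hPA (RXg_nonneg hs) r1 r2
    rw [mul_comm PB PA] at k1
    have k2 := mul_le_mul_of_nonneg_left k1 (by positivity : 0 ≤ 6 * x⁻¹)
    have k3 : 6 * x⁻¹ * (√(PA * PB) * (h ^ 2 * √(τ / h))) =
        6 * h⁻¹ * ((√(PA * PB) / θ) * (h ^ 2 * √(τ / h))) := by
      rw [ex]
      field_simp
    rw [k3, inv_cost ph hτ0] at k2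
    have k4 : 6 * (√(PA * PB) / θ) * (√τ * √h) ≤ κ * (√τ * √h) := by
      refine mul_le_mul_of_nonneg_right ?_ (by positivity)
      rw [hκ]
      linarith
    linarith
  · set x := cC / 2 ^ (e - 1) with hx
    have px : 0 < x := by positivity
    have pA : 0 < cA / 2 ^ (a - 1) := by positivity
    have pB : 0 < cB / 2 ^ (b - 1) := by positivity
    refine (stepC hs hq hA hB hC capA capB capC a b e).trans (add_le_add le_rfl ?_)
    rw [← hx]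
    have r1 : RXg hh I N s (cB / 2 ^ (b - 1)) x FB FC ≤ RXg hh I N s cB x FB FC :=
      RXg_mono hs pB px (lvB b) le_rfl
    have r2 : RXg hh I N s x (cA / 2 ^ (a - 1)) FC FA ≤ RXg hh I N s x cA FC FA :=
      RXg_mono hs px pA le_rfl (lvA a)
    have k1 : √(RXg hh I N s (cB / 2 ^ (b - 1)) x FB FC * RXg hh I N s x (cA / 2 ^ (a - 1)) FC FA) ≤ κ' * x :=
      (Real.sqrt_le_sqrt (mul_le_mul r1 r2 (RXg_nonneg hs) (RXg_nonneg hs))).trans (hT x h0.le (lvC e))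
    have k2 := mul_le_mul_of_nonneg_left k1 (by positivity : 0 ≤ 6 * x⁻¹)
    have k3 : 6 * x⁻¹ * (κ' * x) = 6 * κ' := by field_simp
    rw [k3] at k2
    linarith

end

end Vale.Agent.P141.H228
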